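import Vale.Agent.P308.EX.Defs

/-! P308, regular expanders, polynomial bound uniform in the degree: definitions.
Matchings are involutions (`BI/Defs.lean`), hole moves are in `EX/Defs.lean`.
An orientation `χ` splits every matched pair into an entry vertex (`χ = true`) and an exit
vertex (`χ = false`).  Oriented alternating walks go from an exit vertex `y` to an adjacent entry
vertex `a` and then to the partner `f a`. -/

namespace Vale.Agent.P308.EU

open Finset Vale.Agent.P308.BI Vale.Agent.P308.EX

variable {V : Type*} [Fintype V] [DecidableEq V]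

/-- admissible entries from the exit vertex `y`, avoiding the entries in `F` -/
def ok (G : SimpleGraph V) [DecidableRel G.Adj] (χ : V → Bool) (v : V) (F : Finset V) (y : V) :
    Finset V :=
  (G.neighborFinset y).filter (fun a => χ a = true ∧ a ≠ v ∧ a ∉ F)

/-- number of oriented alternating walks from `y` to `v` with `r` matching steps,
never entering through `F` -/
def W (G : SimpleGraph V) [DecidableRel G.Adj] (f : V → V) (χ : V → Bool) (v : V)
    (F : Finset V) : ℕ → V → ℕ
  | 0, y => if G.Adj y v then 1 else 0
  | r + 1, y => ∑ a ∈ ok G χ v F y, W G f χ v F r (f a)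

/-- number of oriented alternating paths (no entry used twice) from `y` to `v` with `k` matching
steps, never entering through `F` -/
def Pth (G : SimpleGraph V) [DecidableRel G.Adj] (f : V → V) (χ : V → Bool) (v : V) :
    ℕ → Finset V → V → ℕ
  | 0, _, y => if G.Adj y v then 1 else 0
  | k + 1, F, y => ∑ a ∈ ok G χ v F y, Pth G f χ v k (insert a F) (f a)

/-- number of sequences of `k` hole moves (of the hole `x`, the hole `v` stays) after which the
two holes are adjacent -/
def Rr (G : SimpleGraph V) [DecidableRel G.Adj] (v : V) : ℕ → (V → V) → V → ℕ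
  | 0, _, x => if G.Adj x v then 1 else 0
  | k + 1, g, x => ∑ a ∈ (G.neighborFinset x).filter (fun a => g a ≠ a),
      Rr G v k (move g x a) (g a)

/-- a good orientation for the near-perfect matching `f` with holes `u`, `v` -/
structure Orient (G : SimpleGraph V) [DecidableRel G.Adj] (f : V → V) (u v : V) (d : ℕ)
    (χ : V → Bool) : Prop where
  chi_u : χ u = false
  chi_v : χ v = true
  flip : ∀ y, y ≠ u → y ≠ v → χ (f y) = !χ y
  degT : ∀ x, d ≤ 4 * ((G.neighborFinset x).filter (fun y => χ y = true ∧ y ≠ v)).card
  degF : ∀ x, d ≤ 4 * ((G.neighborFinset x).filter (fun y => χ y = false ∧ y ≠ u)).card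

/-- `g` is a near-perfect matching with holes exactly `x` and `v` -/
def St (G : SimpleGraph V) (v : V) (g : V → V) (x : V) : Prop :=
  IsMatch G g ∧ g x = x ∧ g v = v ∧ x ≠ v ∧ ∀ z, g z = z → z = x ∨ z = v

open Classical in
/-- the finite set of states with second hole `v` -/
noncomputable def states (G : SimpleGraph V) (v : V) : Finset ((V → V) × V) :=
  univ.filter (fun p => St G v p.1 p.2)

/-- forward mass: `phi t z` = number of oriented walks from `u` with `t` matching steps ending
at the exit vertex `z` -/
def phi (G : SimpleGraph V) [DecidableRel G.Adj] (f : V → V) (χ : V → Bool) (u : V) :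
    ℕ → V → ℝ
  | 0, z => if z = u then 1 else 0
  | t + 1, z => if χ z = false ∧ z ≠ u then ∑ b ∈ G.neighborFinset (f z), phi G f χ u t b else 0

end Vale.Agent.P308.EU
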