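import Vale.Agent.P308.EU.Defs
import Vale.Agent.P308.EX.Count

/-! P308, regular expanders (uniform in the degree): small degrees force a dense graph. -/

namespace Vale.Agent.P308.EU

open Finset Vale.Agent.P308.BI Vale.Agent.P308.EX

variable {V : Type*} [Fintype V] [DecidableEq V]

theorem dense_of_small {G : SimpleGraph V} [DecidableRel G.Adj] {d : ℕ} (hd0 : 0 < d)
    (hd : d < 150) (hreg : G.IsRegularOfDegree d) {lam : ℝ} (hlam : 0 ≤ lam)
    (hspec : SpecGap G lam) (hgap : 40 * lam ≤ d) : Fintype.card V ≤ 2 * d := by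
  classical
  by_contra hcon
  push Not at hcon
  have hNpos : 0 < Fintype.card V := by omega
  obtain ⟨a⟩ := Fintype.card_pos_iff.1 hNpos
  set n : ℝ := (Fintype.card V : ℝ) with hn
  have hdeg : ∀ z, (G.neighborFinset z).card = d := by
    intro z
    rw [G.card_neighborFinset_eq_degree, hreg.degree_eq]
  have h := hspec (fun w => (if w = a then n else 0) - 1) (by
    rw [sum_sub_distrib, sum_ite_eq' univ a, if_pos (mem_univ a), sum_const, card_univ,
      nsmul_eq_mul, mul_one]
    exact sub_self _)
  have e1 : ∀ z, ∑ w ∈ G.neighborFinset z, ((if w = a then n else 0) - 1)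
      = (if G.Adj a z then n else 0) - d := by
    intro z
    rw [sum_sub_distrib, sum_ite_eq' (G.neighborFinset z) a, sum_const, hdeg, nsmul_eq_mul,
      mul_one]
    congr 1
    by_cases hz : G.Adj a z
    · rw [if_pos hz, if_pos ((G.mem_neighborFinset z a).2 hz.symm)]
    · rw [if_neg hz, if_neg (fun hc => hz ((G.mem_neighborFinset z a).1 hc).symm)]
  have e2 : ∑ z, (∑ w ∈ G.neighborFinset z, ((if w = a then n else 0) - 1)) ^ 2
      = n * (d : ℝ) ^ 2 + d * (n ^ 2 - 2 * n * d) := by
    have : ∀ z, (∑ w ∈ G.neighborFinset z, ((if w = a then n else 0) - 1)) ^ 2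
        = (d : ℝ) ^ 2 + (if G.Adj a z then (n ^ 2 - 2 * n * d) else 0) := by
      intro z
      rw [e1 z]
      by_cases hz : G.Adj a z
      · rw [if_pos hz, if_pos hz]
        ring
      · rw [if_neg hz, if_neg hz]
        ring
    rw [sum_congr rfl (fun z _ => this z), sum_add_distrib, sum_const, card_univ, nsmul_eq_mul,
      ← sum_filter, sum_const, nsmul_eq_mul]
    have hc : (univ.filter (fun z => G.Adj a z)).card = d := by
      rw [← hdeg a]
      congr 1
      ext z
      rw [mem_filter, G.mem_neighborFinset]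
      exact ⟨fun h => h.2, fun h => ⟨mem_univ _, h⟩⟩
    rw [hc]
  have e3 : ∑ w, ((if w = a then n else 0) - 1) ^ 2 = n + (n ^ 2 - 2 * n) := by
    have : ∀ w : V, ((if w = a then n else 0) - 1) ^ 2
        = 1 + (if w = a then (n ^ 2 - 2 * n) else 0) := by
      intro w
      by_cases hw : w = a
      · rw [if_pos hw, if_pos hw]
        ring
      · rw [if_neg hw, if_neg hw]
        ring
    rw [sum_congr rfl (fun w _ => this w), sum_add_distrib, sum_const, card_univ, nsmul_eq_mul,
      mul_one, sum_ite_eq' univ a, if_pos (mem_univ a)]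
  rw [e2, e3] at h
  have hnd : 2 * (d : ℝ) + 1 ≤ n := by
    have : 2 * d + 1 ≤ Fintype.card V := hcon
    rw [hn]
    exact_mod_cast this
  have hdR : (1 : ℝ) ≤ d := by exact_mod_cast hd0
  have hdR2 : (d : ℝ) ≤ 149 := by
    have : d ≤ 149 := by omega
    exact_mod_cast this
  have hl2 : lam ^ 2 ≤ (d : ℝ) ^ 2 / 1600 := by
    have h1 : lam ≤ d / 40 := by linarith
    have h2 : lam ^ 2 ≤ ((d : ℝ) / 40) ^ 2 := pow_le_pow_left₀ hlam h1 2
    calc lam ^ 2 ≤ ((d : ℝ) / 40) ^ 2 := h2
      _ = (d : ℝ) ^ 2 / 1600 := by ring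
  have hn0 : (0 : ℝ) < n := by linarith
  have hq : (0 : ℝ) ≤ n + (n ^ 2 - 2 * n) := by nlinarith
  have h3 : n * (d : ℝ) ^ 2 + d * (n ^ 2 - 2 * n * d)
      ≤ (d : ℝ) ^ 2 / 1600 * (n + (n ^ 2 - 2 * n)) :=
    h.trans (mul_le_mul_of_nonneg_right hl2 hq)
  -- left side is `d n (n - d) ≥ d n^2 / 2`, right side is at most `d^2 n^2 / 1600`
  have h4 : (d : ℝ) * n * (n / 2) ≤ n * (d : ℝ) ^ 2 + d * (n ^ 2 - 2 * n * d) := by
    have : n * (d : ℝ) ^ 2 + d * (n ^ 2 - 2 * n * d) = d * n * (n - d) := by ring
    rw [this]
    apply mul_le_mul_of_nonneg_left _ (by positivity)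
    linarith
  have h5 : (d : ℝ) ^ 2 / 1600 * (n + (n ^ 2 - 2 * n)) ≤ (d : ℝ) ^ 2 / 1600 * n ^ 2 := by
    apply mul_le_mul_of_nonneg_left _ (by positivity)
    linarith
  have h6 : (d : ℝ) ^ 2 / 1600 * n ^ 2 ≤ 149 / 1600 * (d * n ^ 2) := by
    have : (d : ℝ) ^ 2 / 1600 * n ^ 2 = d / 1600 * (d * n ^ 2) := by ring
    rw [this]
    apply mul_le_mul_of_nonneg_right _ (by positivity)
    linarith
  have h7 : (0 : ℝ) < d * n ^ 2 := by positivity
  have h8 : (d : ℝ) * n * (n / 2) = 1 / 2 * (d * n ^ 2) := by ring
  linarith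

theorem dense_main {G : SimpleGraph V} [DecidableRel G.Adj] {d : ℕ}
    (hreg : G.IsRegularOfDegree d) (hN : Fintype.card V ≤ 2 * d) :
    numNearPerfect G ≤ Fintype.card V ^ 3 * numPerfect G := by
  classical
  have hdeg : ∀ z, (G.neighborFinset z).card = d := by
    intro z
    rw [G.card_neighborFinset_eq_degree, hreg.degree_eq]
  have hcount := count hreg 1 (by
    intro f hf
    obtain ⟨hfm, hcard⟩ := hf
    obtain ⟨u, v, huv, hset⟩ := Finset.card_eq_two.mp hcard
    have hu : f u = u := by
      have : u ∈ univ.filter (fun v => f v = v) := by rw [hset]; simp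
      simpa using this
    have hv : f v = v := by
      have : v ∈ univ.filter (fun v => f v = v) := by rw [hset]; simp
      simpa using this
    have hfix : ∀ x, f x = x → x = u ∨ x = v := by
      intro x hx
      have : x ∈ univ.filter (fun v => f v = v) := by simp [hx]
      rw [hset] at this
      simpa using this
    have hinv : ∀ y, f (f y) = y := hfm.1
    by_cases hadj : G.Adj u v
    · exact ⟨0, by omega, f, Reach.refl, u, v, hu, hv, hadj⟩
    -- two `d`-subsets of `V ∖ {u, v}`
    have hfinj : Function.Injective f := by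
      intro y z h
      have := congrArg f h
      rwa [hinv, hinv] at this
    have hsub1 : G.neighborFinset u ⊆ (univ.erase u).erase v := by
      intro z hz
      rw [G.mem_neighborFinset] at hz
      rw [mem_erase, mem_erase]
      refine ⟨?_, hz.ne', mem_univ _⟩
      rintro rfl
      exact hadj hz
    have hsub2 : (G.neighborFinset v).image f ⊆ (univ.erase u).erase v := by
      intro z hz
      obtain ⟨b, hb, rfl⟩ := mem_image.1 hz
      rw [G.mem_neighborFinset] at hb
      rw [mem_erase, mem_erase]
      refine ⟨?_, ?_, mem_univ _⟩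
      · intro h
        have h2 := congrArg f h
        rw [hinv, hv] at h2
        exact hb.ne' h2
      · intro h
        have h2 := congrArg f h
        rw [hinv, hu] at h2
        rw [h2] at hb
        exact hadj hb.symm
    have hnd : ¬ Disjoint (G.neighborFinset u) ((G.neighborFinset v).image f) := by
      intro hdisj
      have h1 : (G.neighborFinset u ∪ (G.neighborFinset v).image f).card = d + d := by
        rw [card_union_of_disjoint hdisj, card_image_of_injective _ hfinj, hdeg, hdeg]
      have h2 : (G.neighborFinset u ∪ (G.neighborFinset v).image f).card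
          ≤ ((univ.erase u).erase v).card := card_le_card (union_subset hsub1 hsub2)
      have h3 : ((univ.erase u).erase v).card = Fintype.card V - 1 - 1 := by
        rw [card_erase_of_mem (mem_erase.2 ⟨huv.symm, mem_univ _⟩),
          card_erase_of_mem (mem_univ _), card_univ]
      have h4 : 2 ≤ Fintype.card V := by
        have : ({u, v} : Finset V).card ≤ Fintype.card V := card_le_univ _
        rwa [card_pair huv] at this
      omega
    obtain ⟨a, ha1, ha2⟩ := not_disjoint_iff.1 hnd
    obtain ⟨b, hb, hba⟩ := mem_image.1 ha2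
    rw [G.mem_neighborFinset] at ha1 hb
    have hfa : f a = b := by rw [← hba, hinv]
    have hau : a ≠ u := ha1.ne'
    have hav : a ≠ v := by
      rintro rfl
      exact hadj ha1
    have hfaa : f a ≠ a := by
      intro h
      rcases hfix a h with h | h
      · exact hau h
      · exact hav h
    have hfau : f a ≠ u := partner_ne_hole hfm hu ha1
    have hvfa : v ≠ f a := by
      rw [hfa]
      exact hb.ne
    refine ⟨1, le_rfl, move f u a, Reach.tail Reach.refl ⟨u, a, hu, ha1, hfaa, rfl⟩,
      f a, v, move_partner f u a hfau hfaa, ?_, ?_⟩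
    · rw [move_eq_of_ne f u a v huv.symm hav.symm hvfa, hv]
    · rw [hfa]
      exact hb.symm)
  rcases Nat.eq_zero_or_pos (Fintype.card V) with h0 | hpos
  · rw [h0] at hcount ⊢
    simpa using hcount
  · obtain ⟨a⟩ := Fintype.card_pos_iff.1 hpos
    have hdlt : d < Fintype.card V := by
      rw [← hreg.degree_eq a]
      exact G.degree_lt_card_verts a
    have h1 : 2 * d + 1 ≤ Fintype.card V ^ 2 := by nlinarith
    calc numNearPerfect G ≤ Fintype.card V * (2 * d + 1) ^ 1 * numPerfect G := hcount
      _ ≤ Fintype.card V * Fintype.card V ^ 2 * numPerfect G := by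
          apply Nat.mul_le_mul_right
          apply Nat.mul_le_mul_left
          rw [pow_one]
          exact h1
      _ = Fintype.card V ^ 3 * numPerfect G := by ring

end Vale.Agent.P308.EU
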