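import Vale.Agent.P308.EU.Spec2
import Vale.Agent.P335.Abstract

/-! P308, regular expanders, PART Q: the spectral hypothesis in terms of eigenvalues. -/

namespace Vale.Agent.P308.EU

open Finset Matrix Vale.Agent.P308.BI Vale.Agent.P308.EX

set_option linter.unusedSectionVars false

variable {V : Type*} [Fintype V] [DecidableEq V]

theorem adj_symm_ip (G : SimpleGraph V) [DecidableRel G.Adj] (f g : V → ℝ) :
    Vale.Agent.P335.ip ((G.adjMatrix ℝ) *ᵥ f) g = Vale.Agent.P335.ip f ((G.adjMatrix ℝ) *ᵥ g) := by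
  have h1 : Vale.Agent.P335.ip ((G.adjMatrix ℝ) *ᵥ f) g = ((G.adjMatrix ℝ) *ᵥ f) ⬝ᵥ g := rfl
  have h2 : Vale.Agent.P335.ip f ((G.adjMatrix ℝ) *ᵥ g) = f ⬝ᵥ ((G.adjMatrix ℝ) *ᵥ g) := rfl
  rw [h1, h2, Matrix.dotProduct_mulVec, ← Matrix.mulVec_transpose, G.transpose_adjMatrix]

theorem sum_adj {G : SimpleGraph V} [DecidableRel G.Adj] {d : ℕ} (hreg : G.IsRegularOfDegree d)
    (x : V → ℝ) : ∑ v, ((G.adjMatrix ℝ) *ᵥ x) v = d * ∑ v, x v := by
  rw [← sum_nbr_sum hreg x]
  exact Finset.sum_congr rfl (fun v _ => SimpleGraph.adjMatrix_mulVec_apply G v x)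

theorem specGap_of_eigen {G : SimpleGraph V} [DecidableRel G.Adj] {d : ℕ}
    (hreg : G.IsRegularOfDegree d) {lam : ℝ} (hlam : 0 ≤ lam)
    (h : ∀ (mu : ℝ) (x : V → ℝ), x ≠ 0 → (∑ v, x v) = 0 → (G.adjMatrix ℝ) *ᵥ x = mu • x →
      |mu| ≤ lam) : SpecGap G lam := by
  set A : Matrix V V ℝ := G.adjMatrix ℝ with hA
  -- the all-ones functional times the all-ones vector
  let J : (V → ℝ) →ₗ[ℝ] (V → ℝ) :=
    { toFun := fun x _ => ∑ v, x v
      map_add' := by
        intro x y
        funext _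
        simp [Finset.sum_add_distrib]
      map_smul' := by
        intro c x
        funext _
        simp [Finset.mul_sum] }
  have hJ : ∀ x w, J x w = ∑ v, x v := fun _ _ => rfl
  let H : (V → ℝ) →ₗ[ℝ] (V → ℝ) := (A.mulVecLin ∘ₗ A.mulVecLin) - ((d : ℝ) ^ 2) • J
  have hH : ∀ x, H x = A *ᵥ (A *ᵥ x) - ((d : ℝ) ^ 2) • J x := fun _ => rfl
  have hsym : ∀ f g, Vale.Agent.P335.ip (H f) g = Vale.Agent.P335.ip f (H g) := by
    intro f g
    have e1 : Vale.Agent.P335.ip (H f) g
        = Vale.Agent.P335.ip (A *ᵥ (A *ᵥ f)) g - (d : ℝ) ^ 2 * ((∑ v, f v) * ∑ v, g v) := by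
      rw [hH]
      unfold Vale.Agent.P335.ip
      simp only [Pi.sub_apply, Pi.smul_apply, smul_eq_mul, hJ, sub_mul, Finset.sum_sub_distrib]
      congr 1
      rw [← Finset.mul_sum]
      ring
    have e2 : Vale.Agent.P335.ip f (H g)
        = Vale.Agent.P335.ip f (A *ᵥ (A *ᵥ g)) - (d : ℝ) ^ 2 * ((∑ v, f v) * ∑ v, g v) := by
      rw [hH]
      unfold Vale.Agent.P335.ip
      simp only [Pi.sub_apply, Pi.smul_apply, smul_eq_mul, hJ, mul_sub, Finset.sum_sub_distrib]
      congr 1
      rw [← Finset.sum_mul]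
      ring
    rw [e1, e2, hA, adj_symm_ip, adj_symm_ip]
  have hev : ∀ (l : ℝ) (g : V → ℝ), g ≠ 0 → H g = l • g → l ≤ lam ^ 2 := by
    intro l g hg hl
    by_contra hcon
    rw [not_le] at hcon
    have hlpos : 0 < l := lt_of_le_of_lt (sq_nonneg lam) hcon
    -- the sum of g vanishes
    have hsum : ∑ v, g v = 0 := by
      by_contra hne
      have hN : 1 ≤ Fintype.card V := by
        rcases isEmpty_or_nonempty V with hV | hV
        · exact absurd (by simp) hne
        · exact Fintype.card_pos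
      have e := congrArg (fun y : V → ℝ => ∑ v, y v) hl
      simp only [hH, Pi.sub_apply, Pi.smul_apply, smul_eq_mul, hJ, Finset.sum_sub_distrib,
        Finset.sum_const, Finset.card_univ, nsmul_eq_mul, ← Finset.mul_sum] at e
      rw [hA, sum_adj hreg, sum_adj hreg] at e
      have hN' : (1 : ℝ) ≤ (Fintype.card V : ℝ) := by exact_mod_cast hN
      have e' : ((d : ℝ) ^ 2 * (1 - (Fintype.card V : ℝ)) - l) * ∑ v, g v = 0 := by
        linear_combination e
      rcases mul_eq_zero.1 e' with h1 | h1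
      · have : (d : ℝ) ^ 2 * (1 - (Fintype.card V : ℝ)) ≤ 0 :=
          mul_nonpos_of_nonneg_of_nonpos (sq_nonneg _) (by linarith)
        linarith
      · exact hne h1
    have hAA : A *ᵥ (A *ᵥ g) = l • g := by
      rw [← hl, hH]
      funext w
      simp [hJ, hsum]
    set s : ℝ := Real.sqrt l with hs
    have hs2 : s * s = l := Real.mul_self_sqrt hlpos.le
    have hspos : 0 < s := Real.sqrt_pos.2 hlpos
    have hbound : s ≤ lam → False := by
      intro hle
      have : s * s ≤ lam * lam := mul_self_le_mul_self hspos.le hle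
      nlinarith
    set y : V → ℝ := A *ᵥ g + s • g with hy
    by_cases hy0 : y = 0
    · -- A g = - s g
      have hAg : A *ᵥ g = (-s) • g := by
        have : A *ᵥ g + s • g = 0 := hy0
        rw [neg_smul]
        exact eq_neg_of_add_eq_zero_left this
      have := h (-s) g hg hsum hAg
      rw [abs_neg, abs_of_pos hspos] at this
      exact hbound this
    · have hAy : A *ᵥ y = s • y := by
        rw [hy, Matrix.mulVec_add, Matrix.mulVec_smul, hAA, smul_add, smul_smul, hs2, add_comm]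
      have hsy : ∑ v, y v = 0 := by
        rw [hy]
        simp only [Pi.add_apply, Pi.smul_apply, smul_eq_mul, Finset.sum_add_distrib,
          ← Finset.mul_sum]
        rw [hA, sum_adj hreg, hsum]
        ring
      have := h s y hy0 hsy hAy
      rw [abs_of_pos hspos] at this
      exact hbound this
  have hray := Vale.Agent.P335.rayleigh H hsym (lam ^ 2) hev
  intro x hx
  have h1 := hray x
  have e1 : Vale.Agent.P335.ip (H x) x = ∑ v, (∑ w ∈ G.neighborFinset v, x w) ^ 2 := by
    have : H x = A *ᵥ (A *ᵥ x) := by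
      rw [hH]
      funext w
      simp [hJ, hx]
    rw [this, hA, adj_symm_ip]
    unfold Vale.Agent.P335.ip
    refine Finset.sum_congr rfl (fun v _ => ?_)
    rw [SimpleGraph.adjMatrix_mulVec_apply, sq]
  have e2 : Vale.Agent.P335.ip x x = ∑ v, x v ^ 2 := by
    unfold Vale.Agent.P335.ip
    exact Finset.sum_congr rfl (fun v _ => (sq (x v)).symm)
  rw [e1, e2] at h1
  exact h1

end Vale.Agent.P308.EU
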