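import Vale.Agent.P308.EU.Defs

/-! P308, regular expanders, uniform bound, PART E: loop erasure, purely from the recursions. -/

namespace Vale.Agent.P308.EU

open Finset Vale.Agent.P308.BI Vale.Agent.P308.EX

set_option linter.unusedSectionVars false

variable {V : Type*} [Fintype V] [DecidableEq V]

/-- number of oriented walks from `y` with `j` matching steps followed by the entry `a` -/
def Hh (G : SimpleGraph V) [DecidableRel G.Adj] (f : V → V) (χ : V → Bool) (v : V) (a : V)
    (F : Finset V) : ℕ → V → ℕ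
  | 0, y => if a ∈ ok G χ v F y then 1 else 0
  | j + 1, y => ∑ a' ∈ ok G χ v F y, Hh G f χ v a F j (f a')

theorem ok_card_le {G : SimpleGraph V} [DecidableRel G.Adj] {d : ℕ}
    (hreg : G.IsRegularOfDegree d) (χ : V → Bool) (v : V) (F : Finset V) (y : V) :
    (ok G χ v F y).card ≤ d := by
  have h := Finset.card_le_card (Finset.filter_subset
    (fun a => χ a = true ∧ a ≠ v ∧ a ∉ F) (G.neighborFinset y))
  rw [G.card_neighborFinset_eq_degree, hreg.degree_eq] at h
  exact h

theorem Hh_le {G : SimpleGraph V} [DecidableRel G.Adj] {d : ℕ}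
    (hreg : G.IsRegularOfDegree d) (f : V → V) (χ : V → Bool) (v a : V) (F : Finset V) (j : ℕ)
    (y : V) : Hh G f χ v a F j y ≤ d ^ j := by
  induction j generalizing y with
  | zero =>
    simp only [Hh, pow_zero]
    split_ifs <;> omega
  | succ j ih =>
    calc Hh G f χ v a F (j + 1) y = ∑ a' ∈ ok G χ v F y, Hh G f χ v a F j (f a') := rfl
      _ ≤ ∑ _a' ∈ ok G χ v F y, d ^ j := Finset.sum_le_sum (fun a' _ => ih (f a'))
      _ = (ok G χ v F y).card * d ^ j := by rw [Finset.sum_const, smul_eq_mul]
      _ ≤ d * d ^ j := Nat.mul_le_mul_right _ (ok_card_le hreg χ v F y)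
      _ = d ^ (j + 1) := by rw [pow_succ, mul_comm]

theorem sum_ok_le (G : SimpleGraph V) [DecidableRel G.Adj] (χ : V → Bool) (v a : V)
    (F : Finset V) (y : V) (g : V → ℕ) :
    ∑ a' ∈ ok G χ v F y, g a'
      ≤ ∑ a' ∈ ok G χ v (insert a F) y, g a' + (if a ∈ ok G χ v F y then 1 else 0) * g a := by
  by_cases ha : a ∈ ok G χ v F y
  · rw [if_pos ha, one_mul]
    have hn : a ∉ ok G χ v (insert a F) y := by
      unfold ok
      rw [mem_filter]
      intro h
      exact h.2.2.2 (mem_insert_self a F)
    have hs : ok G χ v F y ⊆ insert a (ok G χ v (insert a F) y) := by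
      intro b hb
      by_cases hba : b = a
      · rw [hba]; exact mem_insert_self _ _
      · refine mem_insert_of_mem ?_
        unfold ok at hb ⊢
        rw [mem_filter] at hb ⊢
        refine ⟨hb.1, hb.2.1, hb.2.2.1, ?_⟩
        rw [mem_insert]
        rintro (h | h)
        · exact hba h
        · exact hb.2.2.2 h
    calc ∑ a' ∈ ok G χ v F y, g a' ≤ ∑ a' ∈ insert a (ok G χ v (insert a F) y), g a' :=
          Finset.sum_le_sum_of_subset hs
      _ = g a + ∑ a' ∈ ok G χ v (insert a F) y, g a' := Finset.sum_insert hn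
      _ = _ := add_comm _ _
  · rw [if_neg ha, zero_mul, add_zero]
    refine Finset.sum_le_sum_of_subset ?_
    intro b hb
    have hba : b ≠ a := fun h => ha (h ▸ hb)
    unfold ok at hb ⊢
    rw [mem_filter] at hb ⊢
    refine ⟨hb.1, hb.2.1, hb.2.2.1, ?_⟩
    rw [mem_insert]
    rintro (h | h)
    · exact hba h
    · exact hb.2.2.2 h

/-- decomposition of a walk at the last visit of the entry `a` -/
theorem last_visit (G : SimpleGraph V) [DecidableRel G.Adj] (f : V → V) (χ : V → Bool) (v a : V)
    (F : Finset V) (r : ℕ) (y : V) :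
    W G f χ v F r y ≤ W G f χ v (insert a F) r y
      + ∑ j ∈ range r, Hh G f χ v a F j y * W G f χ v (insert a F) (r - 1 - j) (f a) := by
  induction r generalizing y with
  | zero => simp [W]
  | succ r ih =>
    have h1 : W G f χ v F (r + 1) y ≤ ∑ a' ∈ ok G χ v F y, (W G f χ v (insert a F) r (f a')
        + ∑ j ∈ range r, Hh G f χ v a F j (f a') * W G f χ v (insert a F) (r - 1 - j) (f a)) :=
      Finset.sum_le_sum (fun a' _ => ih (f a'))
    rw [Finset.sum_add_distrib, Finset.sum_comm] at h1
    have h2 : ∑ j ∈ range r, ∑ a' ∈ ok G χ v F y,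
        Hh G f χ v a F j (f a') * W G f χ v (insert a F) (r - 1 - j) (f a)
        = ∑ j ∈ range r, Hh G f χ v a F (j + 1) y
          * W G f χ v (insert a F) (r + 1 - 1 - (j + 1)) (f a) := by
      refine Finset.sum_congr rfl (fun j _ => ?_)
      rw [← Finset.sum_mul]
      have : r + 1 - 1 - (j + 1) = r - 1 - j := by omega
      rw [this]
      rfl
    rw [h2] at h1
    have h3 := sum_ok_le G χ v a F y (fun a' => W G f χ v (insert a F) r (f a'))
    rw [Finset.sum_range_succ']
    have h4 : W G f χ v (insert a F) (r + 1) y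
        = ∑ a' ∈ ok G χ v (insert a F) y, W G f χ v (insert a F) r (f a') := rfl
    have h5 : Hh G f χ v a F 0 y = if a ∈ ok G χ v F y then 1 else 0 := rfl
    rw [h4, h5]
    have h6 : r + 1 - 1 - 0 = r := by omega
    rw [h6]
    omega

theorem W_le_T {G : SimpleGraph V} [DecidableRel G.Adj] {d : ℕ} (hd : 0 < d)
    (hreg : G.IsRegularOfDegree d) (f : V → V) (χ : V → Bool) (v a : V) (F : Finset V) (r : ℕ) :
    W G f χ v F r (f a) ≤ ∑ j ∈ range (r + 1), d ^ j * W G f χ v (insert a F) (r - j) (f a) := by
  have h1 := last_visit G f χ v a F r (f a)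
  rw [Finset.sum_range_succ']
  have h2 : ∑ j ∈ range r, Hh G f χ v a F j (f a) * W G f χ v (insert a F) (r - 1 - j) (f a)
      ≤ ∑ j ∈ range r, d ^ (j + 1) * W G f χ v (insert a F) (r - (j + 1)) (f a) := by
    refine Finset.sum_le_sum (fun j _ => ?_)
    have e : r - (j + 1) = r - 1 - j := by omega
    rw [e]
    refine Nat.mul_le_mul_right _ ?_
    exact (Hh_le hreg f χ v a F j (f a)).trans (Nat.pow_le_pow_right hd (Nat.le_succ j))
  simp only [pow_zero, one_mul, Nat.sub_zero]
  omega

/-- the hockey stick identity in the form needed -/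
theorem comb (d : ℕ) (p : ℕ → ℕ) (r : ℕ) :
    ∑ j ∈ range (r + 1), d ^ j * ∑ k ∈ range (r - j + 1), (r - j).choose k * d ^ (r - j - k) * p k
      = ∑ k ∈ range (r + 1), (r + 1).choose (k + 1) * d ^ (r - k) * p k := by
  induction r with
  | zero => simp
  | succ r ih =>
    rw [Finset.sum_range_succ']
    have h1 : ∑ j ∈ range (r + 1), d ^ (j + 1) * ∑ k ∈ range (r + 1 - (j + 1) + 1),
        (r + 1 - (j + 1)).choose k * d ^ (r + 1 - (j + 1) - k) * p k
        = d * ∑ j ∈ range (r + 1), d ^ j * ∑ k ∈ range (r - j + 1),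
          (r - j).choose k * d ^ (r - j - k) * p k := by
      rw [Finset.mul_sum]
      refine Finset.sum_congr rfl (fun j _ => ?_)
      have e : r + 1 - (j + 1) = r - j := by omega
      rw [e, pow_succ]
      ring
    rw [h1, ih]
    simp only [pow_zero, one_mul, Nat.sub_zero]
    have h2 : ∑ k ∈ range (r + 1 + 1), (r + 1 + 1).choose (k + 1) * d ^ (r + 1 - k) * p k
        = ∑ k ∈ range (r + 1 + 1), (r + 1).choose k * d ^ (r + 1 - k) * p k
          + ∑ k ∈ range (r + 1 + 1), (r + 1).choose (k + 1) * d ^ (r + 1 - k) * p k := by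
      rw [← Finset.sum_add_distrib]
      refine Finset.sum_congr rfl (fun k _ => ?_)
      rw [Nat.choose_succ_succ (r + 1) k]
      ring
    have h3 : ∑ k ∈ range (r + 1 + 1), (r + 1).choose (k + 1) * d ^ (r + 1 - k) * p k
        = d * ∑ k ∈ range (r + 1), (r + 1).choose (k + 1) * d ^ (r - k) * p k := by
      rw [Finset.sum_range_succ, Nat.choose_succ_self, zero_mul, zero_mul, add_zero,
        Finset.mul_sum]
      refine Finset.sum_congr rfl (fun k hk => ?_)
      have hk' : k < r + 1 := Finset.mem_range.1 hk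
      have e : r + 1 - k = (r - k) + 1 := by omega
      rw [e, pow_succ]
      ring
    rw [h2, h3]
    ring

theorem erase {G : SimpleGraph V} [DecidableRel G.Adj] {d : ℕ} (hd : 0 < d)
    (hreg : G.IsRegularOfDegree d) (f : V → V) (χ : V → Bool) (v : V) (r : ℕ) (F : Finset V)
    (y : V) :
    W G f χ v F r y ≤ ∑ k ∈ range (r + 1), r.choose k * d ^ (r - k) * Pth G f χ v k F y := by
  induction r using Nat.strong_induction_on generalizing F y with
  | _ r ih =>
    cases r with
    | zero => simp [W, Pth]
    | succ r =>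
      calc W G f χ v F (r + 1) y = ∑ a ∈ ok G χ v F y, W G f χ v F r (f a) := rfl
        _ ≤ ∑ a ∈ ok G χ v F y, ∑ j ∈ range (r + 1),
              d ^ j * W G f χ v (insert a F) (r - j) (f a) :=
            Finset.sum_le_sum (fun a _ => W_le_T hd hreg f χ v a F r)
        _ ≤ ∑ a ∈ ok G χ v F y, ∑ j ∈ range (r + 1), d ^ j * ∑ k ∈ range (r - j + 1),
              (r - j).choose k * d ^ (r - j - k) * Pth G f χ v k (insert a F) (f a) := by
            refine Finset.sum_le_sum (fun a _ => Finset.sum_le_sum (fun j _ => ?_))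
            exact Nat.mul_le_mul_left _ (ih (r - j) (by omega) (insert a F) (f a))
        _ = ∑ a ∈ ok G χ v F y, ∑ k ∈ range (r + 1),
              (r + 1).choose (k + 1) * d ^ (r - k) * Pth G f χ v k (insert a F) (f a) :=
            Finset.sum_congr rfl
              (fun a _ => comb d (fun k => Pth G f χ v k (insert a F) (f a)) r)
        _ = ∑ k ∈ range (r + 1),
              (r + 1).choose (k + 1) * d ^ (r + 1 - (k + 1)) * Pth G f χ v (k + 1) F y := by
            rw [Finset.sum_comm]
            refine Finset.sum_congr rfl (fun k _ => ?_)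
            rw [← Finset.mul_sum]
            have e : r + 1 - (k + 1) = r - k := by omega
            rw [e]
            rfl
        _ ≤ ∑ k ∈ range (r + 1 + 1),
              (r + 1).choose k * d ^ (r + 1 - k) * Pth G f χ v k F y := by
            rw [Finset.sum_range_succ' _ (r + 1)]
            exact Nat.le_add_right _ _

end Vale.Agent.P308.EU
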