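import Mathlib

/-! P308: the symmetric local lemma in counting form, for events on `I → Bool`. -/

namespace Vale.Agent.P308.EU

open Finset

/-- take the coordinates in `S` from `a`, the others from `b` -/
def mix {I : Type*} [DecidableEq I] (S : Finset I) (a b : I → Bool) : I → Bool :=
  fun i => if i ∈ S then a i else b i

theorem indep_card {I : Type*} [Fintype I] [DecidableEq I] (S : Finset I)
    (A B : Finset (I → Bool))
    (hA : ∀ ω ω' : I → Bool, (∀ i ∈ S, ω i = ω' i) → (ω ∈ A ↔ ω' ∈ A))
    (hB : ∀ ω ω' : I → Bool, (∀ i, i ∉ S → ω i = ω' i) → (ω ∈ B ↔ ω' ∈ B)) :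
    (A ∩ B).card * 2 ^ Fintype.card I = A.card * B.card := by
  have hu : (univ : Finset (I → Bool)).card = 2 ^ Fintype.card I := by
    rw [card_univ, Fintype.card_fun, Fintype.card_bool]
  rw [← hu, ← card_product, ← card_product]
  have m1 : ∀ a b : I → Bool, ∀ i ∈ S, mix S a b i = a i := by
    intro a b i hi
    unfold mix
    rw [if_pos hi]
  have m2 : ∀ a b : I → Bool, ∀ i, i ∉ S → mix S a b i = b i := by
    intro a b i hi
    unfold mix
    rw [if_neg hi]
  have hinv : ∀ a b : I → Bool, mix S (mix S a b) (mix S b a) = a := by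
    intro a b
    funext i
    by_cases hi : i ∈ S
    · rw [m1 _ _ i hi, m1 _ _ i hi]
    · rw [m2 _ _ i hi, m2 _ _ i hi]
  apply card_bij' (fun q _ => (mix S q.1 q.2, mix S q.2 q.1))
    (fun q _ => (mix S q.1 q.2, mix S q.2 q.1))
  · intro q hq
    rw [mem_product, mem_inter] at hq
    rw [mem_product]
    refine ⟨?_, ?_⟩
    · exact (hA _ _ (m1 q.1 q.2)).2 hq.1.1
    · exact (hB _ _ (m2 q.2 q.1)).2 hq.1.2
  · intro q hq
    rw [mem_product] at hq
    rw [mem_product, mem_inter]
    refine ⟨⟨?_, ?_⟩, mem_univ _⟩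
    · exact (hA _ _ (m1 q.1 q.2)).2 hq.1
    · exact (hB _ _ (m2 q.1 q.2)).2 hq.2
  · intro q _
    show (mix S (mix S q.1 q.2) (mix S q.2 q.1), mix S (mix S q.2 q.1) (mix S q.1 q.2)) = q
    rw [hinv, hinv]
  · intro q _
    show (mix S (mix S q.1 q.2) (mix S q.2 q.1), mix S (mix S q.2 q.1) (mix S q.1 q.2)) = q
    rw [hinv, hinv]

theorem lll {I X : Type*} [Fintype I] [DecidableEq I] [Fintype X] [DecidableEq X]
    (E : X → Finset (I → Bool)) (S : X → Finset I)
    (hdep : ∀ x (ω ω' : I → Bool), (∀ i ∈ S x, ω i = ω' i) → (ω ∈ E x ↔ ω' ∈ E x))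
    (p : ℝ) (D : ℕ) (hp : ∀ x, ((E x).card : ℝ) ≤ p * 2 ^ Fintype.card I)
    (hD : ∀ x, (univ.filter (fun y => y ≠ x ∧ ¬ Disjoint (S x) (S y))).card ≤ D)
    (h4 : 4 * p * D ≤ 1) (hp4 : 4 * p ≤ 1) : ∃ ω : I → Bool, ∀ x, ω ∉ E x := by
  classical
  let Good : Finset X → Finset (I → Bool) := fun T => univ.filter (fun ω => ∀ y ∈ T, ω ∉ E y)
  have hGood : ∀ T ω, ω ∈ Good T ↔ ∀ y ∈ T, ω ∉ E y := by
    intro T ω
    show ω ∈ univ.filter (fun ω => ∀ y ∈ T, ω ∉ E y) ↔ _
    rw [mem_filter]
    exact ⟨fun h => h.2, fun h => ⟨mem_univ _, h⟩⟩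
  have h2pos : (0 : ℝ) < 2 ^ Fintype.card I := by positivity
  have hp0 : ∀ _x : X, 0 ≤ p := by
    intro x
    have h1 := hp x
    have h2 : (0 : ℝ) ≤ ((E x).card : ℝ) := Nat.cast_nonneg _
    by_contra hneg
    push Not at hneg
    have : p * 2 ^ Fintype.card I < 0 := mul_neg_of_neg_of_pos hneg h2pos
    linarith
  have key : ∀ n : ℕ, ∀ T : Finset X, T.card = n →
      (0 < ((Good T).card : ℝ) ∧
        ∀ x, x ∉ T → (((E x ∩ Good T).card : ℕ) : ℝ) ≤ 2 * p * ((Good T).card : ℝ)) := by
    intro n
    induction n using Nat.strong_induction_on with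
    | _ n ih =>
      intro T hT
      -- positivity
      have hposT : 0 < ((Good T).card : ℝ) := by
        rcases T.eq_empty_or_nonempty with hemp | ⟨y, hy⟩
        · have : Good T = univ := by
            ext ω
            rw [hGood, hemp]
            simp
          rw [this, card_univ, Fintype.card_fun, Fintype.card_bool]
          push_cast
          exact h2pos
        · have hc : (T.erase y).card < n := by
            rw [← hT]
            exact card_erase_lt_of_mem hy
          obtain ⟨hpos', hb'⟩ := ih _ hc (T.erase y) rfl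
          have hby := hb' y (notMem_erase y T)
          have hsub : Good (T.erase y) ⊆ Good T ∪ (E y ∩ Good (T.erase y)) := by
            intro ω hω
            rw [mem_union, mem_inter]
            by_cases hωy : ω ∈ E y
            · exact Or.inr ⟨hωy, hω⟩
            · left
              rw [hGood] at hω ⊢
              intro z hz
              by_cases hzy : z = y
              · rw [hzy]
                exact hωy
              · exact hω z (mem_erase.2 ⟨hzy, hz⟩)
          have hle : ((Good (T.erase y)).card : ℝ)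
              ≤ ((Good T).card : ℝ) + ((E y ∩ Good (T.erase y)).card : ℝ) := by
            exact_mod_cast (card_le_card hsub).trans (card_union_le _ _)
          have hpy := hp0 y
          nlinarith
      refine ⟨hposT, ?_⟩
      intro x hx
      have hpx := hp0 x
      set T1 := T.filter (fun y => ¬ Disjoint (S x) (S y)) with hT1
      set T2 := T.filter (fun y => Disjoint (S x) (S y)) with hT2
      -- step 1
      have hsubG : Good T ⊆ Good T2 := by
        intro ω hω
        rw [hGood] at hω ⊢
        intro y hy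
        exact hω y (mem_filter.1 hy).1
      have h1 : (((E x ∩ Good T).card : ℕ) : ℝ) ≤ (((E x ∩ Good T2).card : ℕ) : ℝ) := by
        exact_mod_cast card_le_card (inter_subset_inter_left hsubG)
      -- independence
      have hind := indep_card (S x) (E x) (Good T2) (hdep x) (by
        intro ω ω' h
        rw [hGood, hGood]
        have hiff : ∀ y ∈ T2, (ω ∈ E y ↔ ω' ∈ E y) := by
          intro y hy
          apply hdep y
          intro i hi
          apply h
          intro hix
          exact (disjoint_left.1 (mem_filter.1 hy).2) hix hi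
        constructor
        · intro hg y hy hc
          exact hg y hy ((hiff y hy).2 hc)
        · intro hg y hy hc
          exact hg y hy ((hiff y hy).1 hc))
      have h2 : (((E x ∩ Good T2).card : ℕ) : ℝ) ≤ p * ((Good T2).card : ℝ) := by
        have hind' : (((E x ∩ Good T2).card : ℕ) : ℝ) * 2 ^ Fintype.card I
            = ((E x).card : ℝ) * ((Good T2).card : ℝ) := by
          exact_mod_cast hind
        have h3 : ((E x).card : ℝ) * ((Good T2).card : ℝ)
            ≤ p * 2 ^ Fintype.card I * ((Good T2).card : ℝ) :=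
          mul_le_mul_of_nonneg_right (hp x) (Nat.cast_nonneg _)
        have h5 : (((E x ∩ Good T2).card : ℕ) : ℝ) * 2 ^ Fintype.card I
            ≤ (p * ((Good T2).card : ℝ)) * 2 ^ Fintype.card I := by
          rw [hind']
          calc ((E x).card : ℝ) * ((Good T2).card : ℝ)
              ≤ p * 2 ^ Fintype.card I * ((Good T2).card : ℝ) := h3
            _ = (p * ((Good T2).card : ℝ)) * 2 ^ Fintype.card I := by ring
        exact le_of_mul_le_mul_right h5 h2pos
      -- step 2: `Good T2` is not much larger than `Good T`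
      have hsub2 : Good T2 ⊆ Good T ∪ T1.biUnion (fun y => E y ∩ Good T2) := by
        intro ω hω
        rw [mem_union, mem_biUnion]
        by_cases hex : ∃ y ∈ T1, ω ∈ E y
        · obtain ⟨y, hy, hωy⟩ := hex
          exact Or.inr ⟨y, hy, mem_inter.2 ⟨hωy, hω⟩⟩
        · left
          push Not at hex
          rw [hGood] at hω ⊢
          intro y hy
          by_cases hdis : Disjoint (S x) (S y)
          · exact hω y (mem_filter.2 ⟨hy, hdis⟩)
          · exact hex y (mem_filter.2 ⟨hy, hdis⟩)
      have hsum : ((T1.biUnion (fun y => E y ∩ Good T2)).card : ℝ)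
          ≤ (T1.card : ℝ) * (2 * p * ((Good T2).card : ℝ)) := by
        have ha : ((T1.biUnion (fun y => E y ∩ Good T2)).card : ℝ)
            ≤ ∑ y ∈ T1, (((E y ∩ Good T2).card : ℕ) : ℝ) := by
          exact_mod_cast card_biUnion_le
        have hb : ∑ y ∈ T1, (((E y ∩ Good T2).card : ℕ) : ℝ)
            ≤ ∑ _y ∈ T1, (2 * p * ((Good T2).card : ℝ)) := by
          apply sum_le_sum
          intro y hy
          have hyT : y ∈ T := (mem_filter.1 hy).1
          have hyT2 : y ∉ T2 := fun h => (mem_filter.1 hy).2 (mem_filter.1 h).2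
          have hc : T2.card < n := by
            rw [← hT]
            apply card_lt_card
            refine ⟨filter_subset _ _, fun hsub => hyT2 (hsub hyT)⟩
          exact (ih _ hc T2 rfl).2 y hyT2
        rw [sum_const, nsmul_eq_mul] at hb
        exact ha.trans hb
      have hT1D : (T1.card : ℝ) ≤ D := by
        have : T1.card ≤ D := by
          refine le_trans (card_le_card ?_) (hD x)
          intro y hy
          rw [mem_filter] at hy ⊢
          refine ⟨mem_univ _, ?_, hy.2⟩
          rintro rfl
          exact hx hy.1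
        exact_mod_cast this
      have hle2 : ((Good T2).card : ℝ)
          ≤ ((Good T).card : ℝ) + (T1.card : ℝ) * (2 * p * ((Good T2).card : ℝ)) := by
        have : ((Good T2).card : ℝ)
            ≤ ((Good T).card : ℝ) + ((T1.biUnion (fun y => E y ∩ Good T2)).card : ℝ) := by
          exact_mod_cast (card_le_card hsub2).trans (card_union_le _ _)
        linarith
      have hg2 : (0 : ℝ) ≤ ((Good T2).card : ℝ) := Nat.cast_nonneg _
      have hhalf : (T1.card : ℝ) * (2 * p * ((Good T2).card : ℝ))
          ≤ 1 / 2 * ((Good T2).card : ℝ) := by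
        have h6 : (T1.card : ℝ) * (2 * p) ≤ 1 / 2 := by
          have : (T1.card : ℝ) * (2 * p) ≤ (D : ℝ) * (2 * p) :=
            mul_le_mul_of_nonneg_right hT1D (by linarith)
          linarith
        calc (T1.card : ℝ) * (2 * p * ((Good T2).card : ℝ))
            = ((T1.card : ℝ) * (2 * p)) * ((Good T2).card : ℝ) := by ring
          _ ≤ 1 / 2 * ((Good T2).card : ℝ) := mul_le_mul_of_nonneg_right h6 hg2
      have hfin : ((Good T2).card : ℝ) ≤ 2 * ((Good T).card : ℝ) := by linarith
      calc (((E x ∩ Good T).card : ℕ) : ℝ) ≤ (((E x ∩ Good T2).card : ℕ) : ℝ) := h1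
        _ ≤ p * ((Good T2).card : ℝ) := h2
        _ ≤ p * (2 * ((Good T).card : ℝ)) := mul_le_mul_of_nonneg_left hfin hpx
        _ = 2 * p * ((Good T).card : ℝ) := by ring
  have hfinal := (key _ univ rfl).1
  have hcard : 0 < (Good univ).card := by exact_mod_cast hfinal
  obtain ⟨ω, hω⟩ := card_pos.1 hcard
  exact ⟨ω, fun x => (hGood _ _).1 hω x (mem_univ x)⟩

end Vale.Agent.P308.EU
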