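import Vale.Agent.P308.EU.Rev2

/-! P308, regular expanders, uniform bound, PART R1: oriented paths are sequences of hole moves;
near-perfect matchings are states. -/

namespace Vale.Agent.P308.EU

open Finset Vale.Agent.P308.BI Vale.Agent.P308.EX

set_option linter.unusedSectionVars false

variable {V : Type*} [Fintype V] [DecidableEq V]

theorem pth_le_Rr {G : SimpleGraph V} [DecidableRel G.Adj] {f : V → V} {u v : V} {d : ℕ}
    {χ : V → Bool} (hf : IsMatch G f) (hu : f u = u) (hv : f v = v)
    (h : Orient G f u v d χ) (k : ℕ) (F : Finset V) (g : V → V) (y : V) (hg : St G v g y)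
    (hy : χ y = false) (hag : ∀ a, χ a = true → a ≠ v → a ∉ F → g a = f a) :
    Pth G f χ v k F y ≤ Rr G v k g y := by
  induction k generalizing F g y with
  | zero => exact le_refl _
  | succ k ih =>
    rw [Pth, Rr]
    have key : ∀ a ∈ ok G χ v F y, G.Adj y a ∧ χ a = true ∧ a ≠ v ∧ a ∉ F := by
      intro a ha
      rw [ok, mem_filter, SimpleGraph.mem_neighborFinset] at ha
      exact ha
    have hne : ∀ a ∈ ok G χ v F y, g a = f a ∧ g a ≠ a ∧ χ (f a) = false := by
      intro a ha
      obtain ⟨h1, h2, h3, h4⟩ := key a ha
      have hau : a ≠ u := by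
        intro hh
        rw [hh, h.chi_u] at h2
        exact Bool.noConfusion h2
      have hfl := h.flip a hau h3
      rw [h2] at hfl
      have hga := hag a h2 h3 h4
      refine ⟨hga, ?_, by simpa using hfl⟩
      rw [hga]
      intro hh
      rw [hh, h2] at hfl
      exact Bool.noConfusion hfl
    calc ∑ a ∈ ok G χ v F y, Pth G f χ v k (insert a F) (f a)
        ≤ ∑ a ∈ ok G χ v F y, Rr G v k (move g y a) (g a) := by
          apply sum_le_sum
          intro a ha
          obtain ⟨h1, h2, h3, h4⟩ := key a ha
          obtain ⟨h5, h6, h7⟩ := hne a ha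
          rw [h5]
          apply ih (insert a F) (move g y a) (f a)
          · rw [← h5]
            exact St.move hg h1 h6
          · exact h7
          · intro a' ha1 ha2 ha3
            rw [mem_insert, not_or] at ha3
            have e1 : a' ≠ y := by
              intro hh
              rw [hh, hy] at ha1
              exact Bool.noConfusion ha1
            have e3 : a' ≠ g a := by
              intro hh
              rw [hh, h5, h7] at ha1
              exact Bool.noConfusion ha1
            rw [move_eq_of_ne g y a a' e1 ha3.1 e3]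
            exact hag a' ha1 ha2 ha3.2
      _ ≤ ∑ a ∈ (G.neighborFinset y).filter (fun a => g a ≠ a), Rr G v k (move g y a) (g a) := by
          apply sum_le_sum_of_subset
          intro a ha
          rw [mem_filter, SimpleGraph.mem_neighborFinset]
          exact ⟨(key a ha).1, (hne a ha).2.1⟩

theorem np_le_states (G : SimpleGraph V) :
    numNearPerfect G ≤ ∑ v, (states G v).card := by
  classical
  rw [← Finset.card_sigma]
  unfold numNearPerfect
  refine le_trans (card_le_card ?_)
    (card_image_le (s := univ.sigma (fun v => states G v)) (f := fun p => p.2.1))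
  intro f hf
  obtain ⟨hm, h2⟩ := (mem_filter.1 hf).2
  obtain ⟨x, v, hxv, hs⟩ := card_eq_two.1 h2
  rw [mem_image]
  refine ⟨⟨v, (f, x)⟩, ?_, rfl⟩
  rw [mem_sigma]
  refine ⟨mem_univ _, mem_states.2 ⟨hm, ?_, ?_, hxv, ?_⟩⟩
  · have hx : x ∈ univ.filter (fun v => f v = v) := by rw [hs]; simp
    exact (mem_filter.1 hx).2
  · have hx : v ∈ univ.filter (fun v => f v = v) := by rw [hs]; simp
    exact (mem_filter.1 hx).2
  · intro z hz
    have hx : z ∈ univ.filter (fun v => f v = v) := mem_filter.2 ⟨mem_univ _, hz⟩
    rw [hs] at hx
    simpa using hx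

end Vale.Agent.P308.EU
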