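import Vale.Agent.P308.EU.Walks1

/-! P308, expanders uniform in the degree, PART W2: joining the forward and the backward mass. -/

namespace Vale.Agent.P308.EU

open Finset Vale.Agent.P308.BI Vale.Agent.P308.EX

variable {V : Type*} [Fintype V] [DecidableEq V]

theorem link_fwd {G : SimpleGraph V} [DecidableRel G.Adj] {f : V → V} {u v : V} {d : ℕ}
    {χ : V → Bool} (hf : IsMatch G f) (hu : f u = u) (hv : f v = v)
    (h : Orient G f u v d χ) (t r : ℕ) :
    ∑ z, phi G f χ u t z * (W G f χ v ∅ r z : ℝ) = (W G f χ v ∅ (t + r) u : ℝ) := by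
  have hinv := hf.1
  induction t generalizing r with
  | zero =>
    simp only [phi, ite_mul, one_mul, zero_mul, Finset.sum_ite_eq', mem_univ, if_true, zero_add]
  | succ t ih =>
    have e1 : ∑ z, phi G f χ u (t + 1) z * (W G f χ v ∅ r z : ℝ)
        = ∑ z ∈ univ.filter (fun z => χ z = false ∧ z ≠ u),
            (∑ b ∈ G.neighborFinset (f z), phi G f χ u t b) * (W G f χ v ∅ r z : ℝ) := by
      rw [Finset.sum_filter]
      apply Finset.sum_congr rfl
      intro z _
      simp only [phi]
      split_ifs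
      · rfl
      · simp
    have e2 : ∑ z ∈ univ.filter (fun z => χ z = false ∧ z ≠ u),
            (∑ b ∈ G.neighborFinset (f z), phi G f χ u t b) * (W G f χ v ∅ r z : ℝ)
        = ∑ a ∈ univ.filter (fun a => χ a = true ∧ a ≠ v),
            (∑ b ∈ G.neighborFinset a, phi G f χ u t b) * (W G f χ v ∅ r (f a) : ℝ) := by
      apply Finset.sum_nbij' f f
      · intro z hz
        simp only [mem_filter, mem_univ, true_and] at hz ⊢
        have hzv : z ≠ v := by
          intro e
          rw [e, h.chi_v] at hz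
          exact absurd hz.1 (by simp)
        refine ⟨by rw [h.flip z hz.2 hzv, hz.1]; rfl, ?_⟩
        intro e
        apply hzv
        rw [← hinv z, e, hv]
      · intro a ha
        simp only [mem_filter, mem_univ, true_and] at ha ⊢
        have hau : a ≠ u := by
          intro e
          rw [e, h.chi_u] at ha
          exact absurd ha.1 (by simp)
        refine ⟨by rw [h.flip a hau ha.2, ha.1]; rfl, ?_⟩
        intro e
        apply hau
        rw [← hinv a, e, hu]
      · intro z _
        exact hinv z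
      · intro a _
        exact hinv a
      · intro z _
        rw [hinv z]
    have e3 : ∑ a ∈ univ.filter (fun a => χ a = true ∧ a ≠ v),
            (∑ b ∈ G.neighborFinset a, phi G f χ u t b) * (W G f χ v ∅ r (f a) : ℝ)
        = ∑ b, phi G f χ u t b * (W G f χ v ∅ (r + 1) b : ℝ) := by
      have l1 : ∀ a, (∑ b ∈ G.neighborFinset a, phi G f χ u t b) * (W G f χ v ∅ r (f a) : ℝ)
          = ∑ b, if G.Adj a b then phi G f χ u t b * (W G f χ v ∅ r (f a) : ℝ) else 0 := by
        intro a
        rw [Finset.sum_mul, ← Finset.sum_filter]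
        apply Finset.sum_congr _ (fun _ _ => rfl)
        ext b
        simp
      have l2 : ∀ b, phi G f χ u t b * (W G f χ v ∅ (r + 1) b : ℝ)
          = ∑ a ∈ univ.filter (fun a => χ a = true ∧ a ≠ v),
              if G.Adj a b then phi G f χ u t b * (W G f χ v ∅ r (f a) : ℝ) else 0 := by
        intro b
        rw [← Finset.sum_filter, W]
        push_cast
        rw [Finset.mul_sum]
        apply Finset.sum_congr _ (fun _ _ => rfl)
        ext a
        simp only [ok, mem_filter, SimpleGraph.mem_neighborFinset, mem_univ, true_and,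
          notMem_empty, not_false_eq_true, and_true]
        constructor
        · rintro ⟨h1, h2, h3⟩
          exact ⟨⟨h2, h3⟩, h1.symm⟩
        · rintro ⟨⟨h2, h3⟩, h1⟩
          exact ⟨h1.symm, h2, h3⟩
      rw [Finset.sum_congr rfl (fun a _ => l1 a), Finset.sum_comm]
      exact Finset.sum_congr rfl (fun b _ => (l2 b).symm)
    rw [e1, e2, e3, ih (r + 1)]
    congr 2
    omega

theorem link_bwd {G : SimpleGraph V} [DecidableRel G.Adj] {f : V → V} {u v : V} {d : ℕ}
    {χ : V → Bool} (hf : IsMatch G f) (hu : f u = u) (hv : f v = v)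
    (h : Orient G f u v d χ) (r : ℕ) (y : V) :
    (W G f χ v ∅ r y : ℝ) = ∑ a ∈ G.neighborFinset y, phi G f (fun z => !χ z) v r a := by
  induction r generalizing y with
  | zero =>
    simp only [W, phi, Finset.sum_ite_eq', SimpleGraph.mem_neighborFinset]
    split_ifs <;> simp
  | succ r ih =>
    rw [W]
    push_cast
    rw [Finset.sum_congr rfl (fun a _ => ih (f a))]
    simp only [phi, ok]
    rw [Finset.sum_filter]
    apply Finset.sum_congr rfl
    intro a _
    by_cases h1 : χ a = true <;> by_cases h2 : a = v <;> simp [h1, h2]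

theorem walk_lower {G : SimpleGraph V} [DecidableRel G.Adj] {f : V → V} {u v : V} {d : ℕ}
    {χ : V → Bool} (hf : IsMatch G f) (hu : f u = u) (hv : f v = v)
    (h : Orient G f u v d χ) (hd : 0 < d) (hreg : G.IsRegularOfDegree d) {lam : ℝ}
    (hlam : 0 ≤ lam) (hspec : SpecGap G lam) (hgap : 40 * lam ≤ d) (t : ℕ)
    (ht : Fintype.card V ≤ 64 ^ t) :
    (d : ℝ) / (2 * Fintype.card V) * ((d : ℝ) / 4) ^ (2 * t) ≤ (W G f χ v ∅ (2 * t) u : ℝ) := by
  have hN : (0 : ℝ) < Fintype.card V := by
    have : 0 < Fintype.card V := Fintype.card_pos_iff.mpr ⟨u⟩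
    exact_mod_cast this
  set N : ℝ := (Fintype.card V : ℝ) with hNdef
  obtain ⟨a1, a2⟩ := phi_bound hf hu hv h hd hreg hlam hspec hgap t
  obtain ⟨b1, b2⟩ := phi_bound hf hv hu h.swap hd hreg hlam hspec hgap t
  set Phi := ∑ z, phi G f χ u t z with hPhi
  set Psi := ∑ z, phi G f (fun z => !χ z) v t z with hPsi
  have hq : ((1 : ℝ) / 64) ^ t ≤ 1 / N := by
    rw [one_div_pow]
    apply one_div_le_one_div_of_le hN
    have : ((Fintype.card V : ℕ) : ℝ) ≤ ((64 ^ t : ℕ) : ℝ) := by exact_mod_cast ht
    simpa using this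
  have hdpos : (0 : ℝ) < d := by exact_mod_cast hd
  have hD : (0 : ℝ) < ((d : ℝ) / 4) ^ t := by positivity
  have hPhi0 : 0 < Phi := lt_of_lt_of_le hD a1
  have hPsi0 : 0 < Psi := lt_of_lt_of_le hD b1
  have a3 : ∑ z, phi G f χ u t z ^ 2 ≤ 18 / N * Phi ^ 2 := by
    refine a2.trans ?_
    apply mul_le_mul_of_nonneg_right _ (sq_nonneg _)
    have : (18 : ℝ) / N = 17 / N + 1 / N := by ring
    rw [this]
    linarith
  have b3 : ∑ z, phi G f (fun z => !χ z) v t z ^ 2 ≤ 18 / N * Psi ^ 2 := by
    refine b2.trans ?_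
    apply mul_le_mul_of_nonneg_right _ (sq_nonneg _)
    have : (18 : ℝ) / N = 17 / N + 1 / N := by ring
    rw [this]
    linarith
  have key := spec_bilin hreg hlam hspec (phi G f (fun z => !χ z) v t) (phi G f χ u t)
    (18 / N * Psi ^ 2) (18 / N * Phi ^ 2) (18 / N * (Phi * Psi)) b3 a3 (by positivity)
    (le_of_eq (by ring))
  have e : (W G f χ v ∅ (2 * t) u : ℝ)
      = ∑ z, phi G f χ u t z * ∑ w ∈ G.neighborFinset z, phi G f (fun z => !χ z) v t w := by
    rw [two_mul, ← link_fwd hf hu hv h t t]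
    apply Finset.sum_congr rfl
    intro z _
    rw [link_bwd hf hu hv h t z]
  rw [e]
  refine le_trans ?_ key
  rw [← hPsi, ← hPhi, ← hNdef]
  have hPP : ((d : ℝ) / 4) ^ (2 * t) ≤ Phi * Psi := by
    rw [two_mul, pow_add]
    exact mul_le_mul a1 b1 hD.le hPhi0.le
  have e2 : (d : ℝ) * Psi * Phi / N - lam * (18 / N * (Phi * Psi))
      = ((d : ℝ) - 18 * lam) / N * (Phi * Psi) := by
    field_simp
  rw [e2]
  have h1 : (d : ℝ) / (2 * N) ≤ ((d : ℝ) - 18 * lam) / N := by
    rw [div_le_div_iff₀ (by positivity) hN]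
    nlinarith
  exact mul_le_mul h1 hPP (by positivity) (le_trans (by positivity) h1)

end Vale.Agent.P308.EU
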