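import Vale.Agent.P308.EU.Orient
import Vale.Agent.P308.EU.Walks2
import Vale.Agent.P308.EU.Erase
import Vale.Agent.P308.EU.Rev1

namespace Vale.Agent.P308.EU

open Finset Vale.Agent.P308.BI Vale.Agent.P308.EX

variable {V : Type*} [Fintype V] [DecidableEq V]

theorem T_le {G : SimpleGraph V} [DecidableRel G.Adj] {d : ℕ} (hreg : G.IsRegularOfDegree d)
    (v : V) (k : ℕ) :
    ∑ p ∈ states G v, Rr G v k p.1 p.2 ≤ d ^ k * numPerfect G := by
  induction k with
  | zero => simpa using T_zero G v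
  | succ k ih =>
    calc _ ≤ d * ∑ p ∈ states G v, Rr G v k p.1 p.2 := T_succ hreg v k
      _ ≤ d * (d ^ k * numPerfect G) := Nat.mul_le_mul_left _ ih
      _ = d ^ (k + 1) * numPerfect G := by ring

/-- for every state the weighted number of closing move sequences is large -/
theorem state_lower {G : SimpleGraph V} [DecidableRel G.Adj] {d : ℕ} {lam : ℝ} (hd : 150 ≤ d)
    (hreg : G.IsRegularOfDegree d) (hlam : 0 ≤ lam) (hspec : SpecGap G lam)
    (hgap : 40 * lam ≤ d) (v : V) (t : ℕ) (ht : Fintype.card V ≤ 64 ^ t)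
    (p : (V → V) × V) (hp : p ∈ states G v) :
    (d : ℝ) / (2 * Fintype.card V) * ((d : ℝ) / 4) ^ (2 * t)
      ≤ ((∑ k ∈ range (2 * t + 1), (2 * t).choose k * d ^ (2 * t - k) * Rr G v k p.1 p.2 : ℕ) : ℝ) := by
  classical
  have hst : St G v p.1 p.2 := (mem_filter.1 hp).2
  obtain ⟨hm, hx, hv, hne, hfix⟩ := hst
  obtain ⟨χ, hχ⟩ := exists_orient hreg hd hm hx hv hne hfix
  have h1 := walk_lower hm hx hv hχ (by omega) hreg hlam hspec hgap t ht
  have h2 := erase (by omega : 0 < d) hreg p.1 χ v (2 * t) ∅ p.2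
  have h3 : ∀ k, Pth G p.1 χ v k ∅ p.2 ≤ Rr G v k p.1 p.2 := fun k =>
    pth_le_Rr hm hx hv hχ k ∅ p.1 p.2 ⟨hm, hx, hv, hne, hfix⟩ hχ.chi_u (fun a _ _ _ => rfl)
  have h4 : W G p.1 χ v ∅ (2 * t) p.2
      ≤ ∑ k ∈ range (2 * t + 1), (2 * t).choose k * d ^ (2 * t - k) * Rr G v k p.1 p.2 :=
    h2.trans (sum_le_sum (fun k _ => Nat.mul_le_mul_left _ (h3 k)))
  exact h1.trans (by exact_mod_cast h4)

theorem states_card {G : SimpleGraph V} [DecidableRel G.Adj] {d : ℕ} {lam : ℝ} (hd : 150 ≤ d)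
    (hreg : G.IsRegularOfDegree d) (hlam : 0 ≤ lam) (hspec : SpecGap G lam)
    (hgap : 40 * lam ≤ d) (v : V) :
    (states G v).card ≤ Fintype.card V ^ 2 * numPerfect G := by
  classical
  set N := Fintype.card V with hN
  have hNpos : 0 < N := Fintype.card_pos_iff.2 ⟨v⟩
  set t := Nat.clog 64 N with htdef
  have ht : N ≤ 64 ^ t := Nat.le_pow_clog (by norm_num) N
  have ht2 : 64 ^ t ≤ 64 * N := by
    rcases Nat.lt_or_ge 1 N with h1 | h1
    · have h0 : 64 ^ t.pred < N := Nat.pow_pred_clog_lt_self (b := 64) (by norm_num) h1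
      have hpos : 0 < t := Nat.clog_pos (by norm_num) h1
      have h00 : 64 ^ t = 64 * 64 ^ t.pred := by
        conv_lhs => rw [← Nat.succ_pred_eq_of_pos hpos]
        rw [pow_succ]; ring
      rw [h00]
      exact Nat.mul_le_mul_left _ h0.le
    · have hN1 : N = 1 := by omega
      have : t = 0 := by rw [htdef, hN1]; simp
      rw [this, hN1]; norm_num
  set Z := numPerfect G with hZ
  -- sum of the lower bounds
  have hsum : ((states G v).card : ℝ) * ((d : ℝ) / (2 * N) * ((d : ℝ) / 4) ^ (2 * t))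
      ≤ ((∑ p ∈ states G v, ∑ k ∈ range (2 * t + 1),
          (2 * t).choose k * d ^ (2 * t - k) * Rr G v k p.1 p.2 : ℕ) : ℝ) := by
    push_cast
    rw [← nsmul_eq_mul]
    refine card_nsmul_le_sum _ _ _ (fun p hp => ?_)
    have := state_lower hd hreg hlam hspec hgap v t ht p hp
    push_cast at this
    exact this
  have hupper : (∑ p ∈ states G v, ∑ k ∈ range (2 * t + 1),
          (2 * t).choose k * d ^ (2 * t - k) * Rr G v k p.1 p.2) ≤ 2 ^ (2 * t) * d ^ (2 * t) * Z := by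
    rw [sum_comm]
    calc _ = ∑ k ∈ range (2 * t + 1), (2 * t).choose k * d ^ (2 * t - k) *
              ∑ p ∈ states G v, Rr G v k p.1 p.2 := by
            refine sum_congr rfl (fun k _ => ?_)
            rw [mul_sum]
      _ ≤ ∑ k ∈ range (2 * t + 1), (2 * t).choose k * d ^ (2 * t - k) * (d ^ k * Z) :=
            sum_le_sum (fun k _ => Nat.mul_le_mul_left _ (T_le hreg v k))
      _ = ∑ k ∈ range (2 * t + 1), (2 * t).choose k * (d ^ (2 * t) * Z) := by
            refine sum_congr rfl (fun k hk => ?_)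
            have hk' : k ≤ 2 * t := by have := mem_range.1 hk; omega
            have : d ^ (2 * t - k) * d ^ k = d ^ (2 * t) := by
              rw [← pow_add]; congr 1; omega
            calc _ = (2 * t).choose k * ((d ^ (2 * t - k) * d ^ k) * Z) := by ring
              _ = _ := by rw [this]
      _ = 2 ^ (2 * t) * d ^ (2 * t) * Z := by
            rw [← sum_mul, Nat.sum_range_choose]; ring
  have hreal : ((states G v).card : ℝ) * ((d : ℝ) / (2 * N) * ((d : ℝ) / 4) ^ (2 * t))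
      ≤ (2 : ℝ) ^ (2 * t) * (d : ℝ) ^ (2 * t) * Z := by
    refine hsum.trans ?_
    exact_mod_cast hupper
  -- clear denominators
  have hdpos : (0 : ℝ) < d := by exact_mod_cast (by omega : 0 < d)
  have hNr : (0 : ℝ) < N := by exact_mod_cast hNpos
  have hkey : ((states G v).card : ℝ) * d ≤ 2 * N * (64 : ℝ) ^ t * Z := by
    have e1 : ((d : ℝ) / 4) ^ (2 * t) = (d : ℝ) ^ (2 * t) / 16 ^ t := by
      rw [div_pow, pow_mul (4 : ℝ) 2 t]; norm_num
    have e2 : (2 : ℝ) ^ (2 * t) = 4 ^ t := by rw [pow_mul]; norm_num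
    rw [e1, e2] at hreal
    have hdp : (0 : ℝ) < (d : ℝ) ^ (2 * t) := by positivity
    have h16 : (0 : ℝ) < (16 : ℝ) ^ t := by positivity
    have e3 : (64 : ℝ) ^ t = 4 ^ t * 16 ^ t := by rw [← mul_pow]; norm_num
    have : ((states G v).card : ℝ) * ((d : ℝ) / (2 * N) * ((d : ℝ) ^ (2 * t) / 16 ^ t))
        = (((states G v).card : ℝ) * d) * ((d : ℝ) ^ (2 * t) / (2 * N * 16 ^ t)) := by
      field_simp
    rw [this] at hreal
    have hc : (0 : ℝ) < (d : ℝ) ^ (2 * t) / (2 * N * 16 ^ t) := by positivity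
    have : (4 : ℝ) ^ t * (d : ℝ) ^ (2 * t) * Z
        = (2 * N * (64 : ℝ) ^ t * Z) * ((d : ℝ) ^ (2 * t) / (2 * N * 16 ^ t)) := by
      rw [e3]; field_simp
    rw [this] at hreal
    exact le_of_mul_le_mul_right hreal hc
  have hnat : (states G v).card * d ≤ 2 * N * 64 ^ t * Z := by exact_mod_cast hkey
  have h5 : (states G v).card * 150 ≤ 128 * (N ^ 2 * Z) := by
    calc (states G v).card * 150 ≤ (states G v).card * d := Nat.mul_le_mul_left _ hd
      _ ≤ 2 * N * 64 ^ t * Z := hnat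
      _ ≤ 2 * N * (64 * N) * Z := by gcongr
      _ = 128 * (N ^ 2 * Z) := by ring
  omega

theorem main (G : SimpleGraph V) [DecidableRel G.Adj] (d : ℕ) (lam : ℝ) (hd : 150 ≤ d)
    (hreg : G.IsRegularOfDegree d) (hlam : 0 ≤ lam) (hspec : SpecGap G lam)
    (hgap : 40 * lam ≤ d) :
    numNearPerfect G ≤ Fintype.card V ^ 3 * numPerfect G := by
  calc numNearPerfect G ≤ ∑ v, (states G v).card := np_le_states G
    _ ≤ ∑ _v : V, Fintype.card V ^ 2 * numPerfect G :=
        sum_le_sum (fun v _ => states_card hd hreg hlam hspec hgap v)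
    _ = Fintype.card V ^ 3 * numPerfect G := by
        rw [sum_const, card_univ, smul_eq_mul]; ring

end Vale.Agent.P308.EU
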