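import Vale.Agent.P308.EU.Defs

set_option linter.unusedSectionVars false
set_option linter.unusedVariables false

namespace Vale.Agent.P308.EU

open Finset Vale.Agent.P308.BI Vale.Agent.P308.EX

variable {V : Type*} [Fintype V] [DecidableEq V]

/-- colouring from one random bit per matched pair (bit of the representative) -/
def chiOf (f : V → V) (u v : V) (rep : V → V) (ω : V → Bool) (y : V) : Bool :=
  if y = u then false else if y = v then true else if rep y = y then ω y else !ω (f y)

theorem exists_rep {f : V → V} (hf : ∀ y, f (f y) = y) :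
    ∃ rep : V → V, (∀ y, rep y = y ∨ rep y = f y) ∧ ∀ y, rep (f y) = rep y := by
  classical
  let e := Fintype.equivFin V
  refine ⟨fun y => if e y ≤ e (f y) then y else f y, ?_, ?_⟩
  · intro y
    by_cases h : e y ≤ e (f y)
    · left; simp [h]
    · right; simp [h]
  · intro y
    simp only [hf]
    by_cases h : e y ≤ e (f y)
    · by_cases h' : e (f y) ≤ e y
      · have : e y = e (f y) := le_antisymm h h'
        have : y = f y := e.injective this
        simp [← this]
      · simp [h, h']
    · have h' : e (f y) ≤ e y := le_of_lt (not_le.1 h)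
      simp [h, h']

/-- weight of a colour -/
noncomputable def cw (s b : Bool) : ℝ := if b = s then 16 / 81 else 1

/-- weight of the vertex `y` when the bit of its representative is `b` -/
noncomputable def hh (rep : V → V) (s : Bool) (y : V) (b : Bool) : ℝ :=
  cw s (if rep y = y then b else !b)

theorem cw_sum (s : Bool) : cw s true + cw s false = 97 / 81 := by
  cases s <;> simp [cw] <;> norm_num

theorem cw_mul (s b : Bool) : cw s b * cw s (!b) = 16 / 81 := by
  cases s <;> cases b <;> simp [cw]

theorem hh_sum (rep : V → V) (s : Bool) (y : V) : hh rep s y true + hh rep s y false = 97 / 81 := by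
  unfold hh
  by_cases h : rep y = y
  · simp only [h, if_true]; exact cw_sum s
  · simp only [h, if_false, Bool.not_true, Bool.not_false]; rw [add_comm]; exact cw_sum s

theorem chi_eq {f : V → V} {u v : V} {rep : V → V} (hrep : ∀ y, rep y = y ∨ rep y = f y)
    (ω : V → Bool) {y : V} (hu : y ≠ u) (hv : y ≠ v) :
    chiOf f u v rep ω y = if rep y = y then ω (rep y) else !ω (rep y) := by
  unfold chiOf
  rw [if_neg hu, if_neg hv]
  by_cases h : rep y = y
  · simp [h]
  · have := (hrep y).resolve_left h
    rw [if_neg h, if_neg h, this]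

theorem factor_le {f : V → V} {u v : V} (hf : ∀ y, f (f y) = y)
    (hfix : ∀ x, f x = x → x = u ∨ x = v)
    {rep : V → V} (hrep : ∀ y, rep y = y ∨ rep y = f y) (s : Bool) (N' : Finset V)
    (hN : ∀ y ∈ N', y ≠ u ∧ y ≠ v) (z : V) :
    ∑ b : Bool, ∏ y ∈ N'.filter (fun y => rep y = z), hh rep s y b
      ≤ 2 * (97 / 162 : ℝ) ^ (N'.filter (fun y => rep y = z)).card := by
  set S := N'.filter (fun y => rep y = z) with hS
  have hsub : ∀ y ∈ S, y = z ∨ y = f z := by
    intro y hy
    rw [hS, mem_filter] at hy
    rcases hrep y with h | h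
    · left; rw [← h]; exact hy.2
    · right; rw [← hy.2, h, hf]
  rw [Fintype.sum_bool]
  by_cases h1 : z ∈ S
  · by_cases h2 : f z ∈ S
    · -- both
      have hzN := hN z (mem_filter.1 h1).1
      have hne : z ≠ f z := by
        intro h
        rcases hfix z h.symm with h' | h'
        · exact hzN.1 h'
        · exact hzN.2 h'
      have hSeq : S = {z, f z} := by
        ext y
        simp only [mem_insert, mem_singleton]
        constructor
        · exact hsub y
        · rintro (rfl | rfl)
          · exact h1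
          · exact h2
      have r1 : rep z = z := (mem_filter.1 h1).2
      have r2 : rep (f z) = z := (mem_filter.1 h2).2
      have r2' : rep (f z) ≠ f z := by rw [r2]; exact hne
      rw [hSeq, prod_pair hne, prod_pair hne, card_pair hne]
      have e : ∀ b, hh rep s z b * hh rep s (f z) b = 16 / 81 := by
        intro b
        unfold hh
        rw [if_pos r1, if_neg r2']
        exact cw_mul s b
      rw [e, e]
      norm_num
    · have hSeq : S = {z} := by
        ext y
        simp only [mem_singleton]
        constructor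
        · intro hy
          rcases hsub y hy with h | h
          · exact h
          · exact absurd (h ▸ hy) h2
        · rintro rfl; exact h1
      rw [hSeq, prod_singleton, prod_singleton, card_singleton, hh_sum]
      norm_num
  · by_cases h2 : f z ∈ S
    · have hSeq : S = {f z} := by
        ext y
        simp only [mem_singleton]
        constructor
        · intro hy
          rcases hsub y hy with h | h
          · exact absurd (h ▸ hy) h1
          · exact h
        · rintro rfl; exact h2
      rw [hSeq, prod_singleton, prod_singleton, card_singleton, hh_sum]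
      norm_num
    · have hSeq : S = ∅ := by
        rw [eq_empty_iff_forall_notMem]
        intro y hy
        rcases hsub y hy with h | h
        · exact h1 (h ▸ hy)
        · exact h2 (h ▸ hy)
      rw [hSeq]
      simp
      norm_num

theorem mgf_le {f : V → V} {u v : V} (hf : ∀ y, f (f y) = y)
    (hfix : ∀ x, f x = x → x = u ∨ x = v)
    {rep : V → V} (hrep : ∀ y, rep y = y ∨ rep y = f y) (s : Bool) (N' : Finset V)
    (hN : ∀ y ∈ N', y ≠ u ∧ y ≠ v) :
    ∑ ω : V → Bool, ∏ y ∈ N', cw s (chiOf f u v rep ω y)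
      ≤ 2 ^ Fintype.card V * (97 / 162 : ℝ) ^ N'.card := by
  have e1 : ∀ ω : V → Bool, ∏ y ∈ N', cw s (chiOf f u v rep ω y)
      = ∏ z : V, ∏ y ∈ N'.filter (fun y => rep y = z), hh rep s y (ω z) := by
    intro ω
    rw [← Finset.prod_fiberwise N' rep]
    apply Finset.prod_congr rfl
    intro z _
    apply Finset.prod_congr rfl
    intro y hy
    rw [mem_filter] at hy
    rw [chi_eq hrep ω (hN y hy.1).1 (hN y hy.1).2]
    unfold hh
    rw [hy.2]
  simp only [e1]
  have e2 := Finset.prod_univ_sum (fun _ : V => (univ : Finset Bool))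
    (fun z b => ∏ y ∈ N'.filter (fun y => rep y = z), hh rep s y b)
  rw [Fintype.piFinset_univ] at e2
  rw [← e2]
  refine le_trans (Finset.prod_le_prod ?_ (fun z _ => factor_le hf hfix hrep s N' hN z)) ?_
  · intro z _
    apply Finset.sum_nonneg
    intro b _
    apply Finset.prod_nonneg
    intro y _
    unfold hh cw
    split_ifs <;> norm_num
  · rw [Finset.prod_mul_distrib, Finset.prod_const, card_univ, Finset.prod_pow_eq_pow_sum]
    have : ∑ z : V, (N'.filter (fun y => rep y = z)).card = N'.card :=
      (card_eq_sum_card_fiberwise (fun y _ => mem_univ (rep y))).symm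
    rw [this]

theorem pow_aux (d : ℕ) : (97 / 162 : ℝ) ^ (d - 2) * (3 / 2) ^ d
    ≤ (162 / 97) ^ 2 * (97 / 108) ^ d := by
  rcases d with _ | _ | k
  · norm_num
  · norm_num
  · have : k + 1 + 1 - 2 = k := by omega
    rw [this]
    have e : (97 / 108 : ℝ) = (97 / 162) * (3 / 2) := by norm_num
    rw [e, mul_pow, pow_succ (97 / 162 : ℝ) (k + 1), pow_succ (97 / 162 : ℝ) k]
    have h1 : (0 : ℝ) < (97 / 162) ^ k := by positivity
    have h2 : (0 : ℝ) < (3 / 2) ^ (k + 1 + 1) := by positivity
    apply le_of_eq
    field_simp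

theorem tail_gen {G : SimpleGraph V} [DecidableRel G.Adj] {d : ℕ}
    (hreg : G.IsRegularOfDegree d) {f : V → V} {u v : V} (hf : ∀ y, f (f y) = y)
    (hfix : ∀ x, f x = x → x = u ∨ x = v)
    {rep : V → V} (hrep : ∀ y, rep y = y ∨ rep y = f y) (s : Bool) (x : V) :
    ((univ.filter (fun ω : V → Bool => 4 * (((G.neighborFinset x).filter
      (fun y => y ≠ u ∧ y ≠ v)).filter (fun y => chiOf f u v rep ω y = s)).card < d)).card : ℝ)
      ≤ (162 / 97) ^ 2 * (97 / 108) ^ d * 2 ^ Fintype.card V := by
  set N' := (G.neighborFinset x).filter (fun y => y ≠ u ∧ y ≠ v) with hN'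
  have hN : ∀ y ∈ N', y ≠ u ∧ y ≠ v := fun y hy => (mem_filter.1 hy).2
  have hcard : d - 2 ≤ N'.card := by
    have h1 : (G.neighborFinset x).card = d := by
      rw [SimpleGraph.card_neighborFinset_eq_degree, hreg x]
    have h2 : G.neighborFinset x ⊆ N' ∪ {u, v} := by
      intro y hy
      rw [mem_union, hN', mem_filter]
      by_cases hu : y = u
      · right; simp [hu]
      · by_cases hv : y = v
        · right; simp [hv]
        · left; exact ⟨hy, hu, hv⟩
    have h3 := card_le_card h2
    have h4 := card_union_le N' {u, v}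
    have h5 : ({u, v} : Finset V).card ≤ 2 := card_le_two
    omega
  have hprod : ∀ ω : V → Bool, ∏ y ∈ N', cw s (chiOf f u v rep ω y)
      = (16 / 81 : ℝ) ^ (N'.filter (fun y => chiOf f u v rep ω y = s)).card := by
    intro ω
    unfold cw
    rw [Finset.prod_ite, Finset.prod_const, Finset.prod_const_one, mul_one]
  have hm := mgf_le hf hfix hrep s N' hN
  set Bad := univ.filter (fun ω : V → Bool =>
    4 * (N'.filter (fun y => chiOf f u v rep ω y = s)).card < d) with hBad
  have h1 : (Bad.card : ℝ) * (2 / 3) ^ d ≤ ∑ ω : V → Bool, ∏ y ∈ N', cw s (chiOf f u v rep ω y) := by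
    calc (Bad.card : ℝ) * (2 / 3) ^ d = ∑ ω ∈ Bad, (2 / 3 : ℝ) ^ d := by
          rw [Finset.sum_const, nsmul_eq_mul]
      _ ≤ ∑ ω ∈ Bad, ∏ y ∈ N', cw s (chiOf f u v rep ω y) := by
          apply Finset.sum_le_sum
          intro ω hω
          rw [hBad, mem_filter] at hω
          rw [hprod ω]
          have e : (16 / 81 : ℝ) = (2 / 3) ^ 4 := by norm_num
          rw [e, ← pow_mul]
          apply pow_le_pow_of_le_one (by norm_num) (by norm_num)
          exact le_of_lt hω.2
      _ ≤ ∑ ω : V → Bool, ∏ y ∈ N', cw s (chiOf f u v rep ω y) := by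
          apply Finset.sum_le_sum_of_subset_of_nonneg (subset_univ _)
          intro ω _ _
          rw [hprod ω]
          positivity
  have h2 : (97 / 162 : ℝ) ^ N'.card ≤ (97 / 162) ^ (d - 2) :=
    pow_le_pow_of_le_one (by norm_num) (by norm_num) hcard
  have h3 : (Bad.card : ℝ) * (2 / 3) ^ d ≤ 2 ^ Fintype.card V * (97 / 162 : ℝ) ^ (d - 2) :=
    le_trans h1 (le_trans hm (mul_le_mul_of_nonneg_left h2 (by positivity)))
  have h4 : (Bad.card : ℝ) = (Bad.card : ℝ) * (2 / 3) ^ d * (3 / 2) ^ d := by
    rw [mul_assoc, ← mul_pow]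
    norm_num
  rw [h4]
  calc (Bad.card : ℝ) * (2 / 3) ^ d * (3 / 2) ^ d
      ≤ 2 ^ Fintype.card V * (97 / 162 : ℝ) ^ (d - 2) * (3 / 2) ^ d :=
        mul_le_mul_of_nonneg_right h3 (by positivity)
    _ = 2 ^ Fintype.card V * ((97 / 162 : ℝ) ^ (d - 2) * (3 / 2) ^ d) := by ring
    _ ≤ 2 ^ Fintype.card V * ((162 / 97) ^ 2 * (97 / 108) ^ d) :=
        mul_le_mul_of_nonneg_left (pow_aux d) (by positivity)
    _ = (162 / 97) ^ 2 * (97 / 108) ^ d * 2 ^ Fintype.card V := by ring

theorem tail_true {G : SimpleGraph V} [DecidableRel G.Adj] {d : ℕ}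
    (hreg : G.IsRegularOfDegree d) {f : V → V} {u v : V} (hf : IsMatch G f)
    (hu : f u = u) (hv : f v = v) (huv : u ≠ v) (hfix : ∀ x, f x = x → x = u ∨ x = v)
    {rep : V → V} (hrep : ∀ y, rep y = y ∨ rep y = f y) (hrep' : ∀ y, rep (f y) = rep y) (x : V) :
    ((univ.filter (fun ω : V → Bool => 4 * ((G.neighborFinset x).filter
      (fun y => chiOf f u v rep ω y = true ∧ y ≠ v)).card < d)).card : ℝ)
      ≤ (162 / 97) ^ 2 * (97 / 108) ^ d * 2 ^ Fintype.card V := by
  refine le_trans ?_ (tail_gen hreg hf.1 hfix hrep true x)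
  norm_cast
  apply card_le_card
  intro ω hω
  rw [mem_filter] at hω ⊢
  refine ⟨mem_univ _, lt_of_le_of_lt ?_ hω.2⟩
  apply Nat.mul_le_mul_left
  apply card_le_card
  intro y hy
  rw [mem_filter, mem_filter] at hy
  rw [mem_filter]
  exact ⟨hy.1.1, hy.2, hy.1.2.2⟩

theorem tail_false {G : SimpleGraph V} [DecidableRel G.Adj] {d : ℕ}
    (hreg : G.IsRegularOfDegree d) {f : V → V} {u v : V} (hf : IsMatch G f)
    (hu : f u = u) (hv : f v = v) (huv : u ≠ v) (hfix : ∀ x, f x = x → x = u ∨ x = v)
    {rep : V → V} (hrep : ∀ y, rep y = y ∨ rep y = f y) (hrep' : ∀ y, rep (f y) = rep y) (x : V) :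
    ((univ.filter (fun ω : V → Bool => 4 * ((G.neighborFinset x).filter
      (fun y => chiOf f u v rep ω y = false ∧ y ≠ u)).card < d)).card : ℝ)
      ≤ (162 / 97) ^ 2 * (97 / 108) ^ d * 2 ^ Fintype.card V := by
  refine le_trans ?_ (tail_gen hreg hf.1 hfix hrep false x)
  norm_cast
  apply card_le_card
  intro ω hω
  rw [mem_filter] at hω ⊢
  refine ⟨mem_univ _, lt_of_le_of_lt ?_ hω.2⟩
  apply Nat.mul_le_mul_left
  apply card_le_card
  intro y hy
  rw [mem_filter, mem_filter] at hy
  rw [mem_filter]
  exact ⟨hy.1.1, hy.2, hy.1.2.1⟩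

end Vale.Agent.P308.EU
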