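import Vale.Agent.P308.EU.LLL
import Vale.Agent.P308.EU.Tail

/-! P308, regular expanders (uniform in the degree): existence of a good orientation. -/

namespace Vale.Agent.P308.EU

open Finset Vale.Agent.P308.BI Vale.Agent.P308.EX

variable {V : Type*} [Fintype V] [DecidableEq V]

theorem numeric (d : ℕ) (hd : 150 ≤ d) :
    4 * (2 * ((162 / 97 : ℝ) ^ 2 * (97 / 108) ^ d)) * ((2 * d ^ 2 : ℕ) : ℝ) ≤ 1 := by
  induction d, hd using Nat.le_induction with
  | base => norm_num
  | succ n hn ih =>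
    push_cast at ih ⊢
    have hn' : (150 : ℝ) ≤ n := by exact_mod_cast hn
    have h1 : (97 / 108 : ℝ) * ((n : ℝ) + 1) ^ 2 ≤ (n : ℝ) ^ 2 := by nlinarith
    have hpos : (0 : ℝ) ≤ 4 * (2 * ((162 / 97 : ℝ) ^ 2 * (97 / 108) ^ n)) * 2 := by positivity
    calc 4 * (2 * ((162 / 97 : ℝ) ^ 2 * (97 / 108) ^ (n + 1))) * (2 * ((n : ℝ) + 1) ^ 2)
        = (4 * (2 * ((162 / 97 : ℝ) ^ 2 * (97 / 108) ^ n)) * 2) *
            ((97 / 108 : ℝ) * ((n : ℝ) + 1) ^ 2) := by
          rw [pow_succ]
          ring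
      _ ≤ (4 * (2 * ((162 / 97 : ℝ) ^ 2 * (97 / 108) ^ n)) * 2) * (n : ℝ) ^ 2 :=
          mul_le_mul_of_nonneg_left h1 hpos
      _ = 4 * (2 * ((162 / 97 : ℝ) ^ 2 * (97 / 108) ^ n)) * (2 * (n : ℝ) ^ 2) := by ring
      _ ≤ 1 := ih

theorem chiOf_congr (f : V → V) (u v : V) {rep : V → V} (hrep : ∀ y, rep y = y ∨ rep y = f y)
    {ω ω' : V → Bool} {y : V} (h : ω (rep y) = ω' (rep y)) :
    chiOf f u v rep ω y = chiOf f u v rep ω' y := by
  unfold chiOf
  by_cases h1 : y = u
  · rw [if_pos h1, if_pos h1]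
  rw [if_neg h1, if_neg h1]
  by_cases h2 : y = v
  · rw [if_pos h2, if_pos h2]
  rw [if_neg h2, if_neg h2]
  by_cases h3 : rep y = y
  · rw [if_pos h3, if_pos h3]
    rw [h3] at h
    exact h
  · rw [if_neg h3, if_neg h3]
    rcases hrep y with h4 | h4
    · exact absurd h4 h3
    · rw [h4] at h
      rw [h]

theorem rep_eq_cases {f : V → V} (hf : ∀ y, f (f y) = y) {rep : V → V}
    (hrep : ∀ y, rep y = y ∨ rep y = f y) {a b : V} (h : rep a = rep b) : b = a ∨ b = f a := by
  rcases hrep a with ha | ha <;> rcases hrep b with hb | hb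
  · left
    rw [← hb, ← h, ha]
  · right
    rw [ha, hb] at h
    rw [h, hf]
  · right
    rw [ha, hb] at h
    exact h.symm
  · left
    rw [ha, hb] at h
    have := congrArg f h
    rw [hf, hf] at this
    exact this.symm

theorem exists_orient {G : SimpleGraph V} [DecidableRel G.Adj] {d : ℕ}
    (hreg : G.IsRegularOfDegree d) (hd : 150 ≤ d) {f : V → V} {u v : V} (hf : IsMatch G f)
    (hu : f u = u) (hv : f v = v) (huv : u ≠ v) (hfix : ∀ x, f x = x → x = u ∨ x = v) :
    ∃ χ : V → Bool, Orient G f u v d χ := by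
  classical
  obtain ⟨rep, hrep, hrep'⟩ := exists_rep hf.1
  have hinv : ∀ y, f (f y) = y := hf.1
  let ET : V → Finset (V → Bool) := fun x => univ.filter (fun ω : V → Bool =>
    4 * ((G.neighborFinset x).filter (fun y => chiOf f u v rep ω y = true ∧ y ≠ v)).card < d)
  let EF : V → Finset (V → Bool) := fun x => univ.filter (fun ω : V → Bool =>
    4 * ((G.neighborFinset x).filter (fun y => chiOf f u v rep ω y = false ∧ y ≠ u)).card < d)
  let S : V → Finset V := fun x => (G.neighborFinset x).image rep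
  have hnum := numeric d hd
  have hp0 : (0 : ℝ) ≤ 2 * ((162 / 97 : ℝ) ^ 2 * (97 / 108) ^ d) := by positivity
  have hcongr : ∀ x (ω ω' : V → Bool), (∀ i ∈ S x, ω i = ω' i) →
      ∀ y ∈ G.neighborFinset x, chiOf f u v rep ω y = chiOf f u v rep ω' y := by
    intro x ω ω' h y hy
    exact chiOf_congr f u v hrep (h _ (mem_image_of_mem rep hy))
  have hdep : ∀ x (ω ω' : V → Bool), (∀ i ∈ S x, ω i = ω' i) →
      (ω ∈ ET x ∪ EF x ↔ ω' ∈ ET x ∪ EF x) := by
    intro x ω ω' h
    have hc := hcongr x ω ω' h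
    have e1 : (G.neighborFinset x).filter (fun y => chiOf f u v rep ω y = true ∧ y ≠ v)
        = (G.neighborFinset x).filter (fun y => chiOf f u v rep ω' y = true ∧ y ≠ v) := by
      apply filter_congr
      intro y hy
      rw [hc y hy]
    have e2 : (G.neighborFinset x).filter (fun y => chiOf f u v rep ω y = false ∧ y ≠ u)
        = (G.neighborFinset x).filter (fun y => chiOf f u v rep ω' y = false ∧ y ≠ u) := by
      apply filter_congr
      intro y hy
      rw [hc y hy]
    simp only [ET, EF, mem_union, mem_filter, mem_univ, true_and]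
    rw [e1, e2]
  have hp : ∀ x, (((ET x ∪ EF x).card : ℕ) : ℝ)
      ≤ 2 * ((162 / 97 : ℝ) ^ 2 * (97 / 108) ^ d) * 2 ^ Fintype.card V := by
    intro x
    have h1 := tail_true hreg hf hu hv huv hfix hrep hrep' x
    have h2 := tail_false hreg hf hu hv huv hfix hrep hrep' x
    have h3 : (((ET x ∪ EF x).card : ℕ) : ℝ) ≤ ((ET x).card : ℝ) + ((EF x).card : ℝ) := by
      exact_mod_cast card_union_le _ _
    have h1' : ((ET x).card : ℝ) ≤ (162 / 97) ^ 2 * (97 / 108) ^ d * 2 ^ Fintype.card V := h1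
    have h2' : ((EF x).card : ℝ) ≤ (162 / 97) ^ 2 * (97 / 108) ^ d * 2 ^ Fintype.card V := h2
    linarith
  have hdeg : ∀ a, (G.neighborFinset a).card = d := by
    intro a
    rw [G.card_neighborFinset_eq_degree, hreg.degree_eq]
  have hD : ∀ x, (univ.filter (fun y => y ≠ x ∧ ¬ Disjoint (S x) (S y))).card ≤ 2 * d ^ 2 := by
    intro x
    have hsub : univ.filter (fun y => y ≠ x ∧ ¬ Disjoint (S x) (S y)) ⊆
        (G.neighborFinset x).biUnion
          (fun a => G.neighborFinset a ∪ G.neighborFinset (f a)) := by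
      intro y hy
      rw [mem_filter] at hy
      obtain ⟨i, hix, hiy⟩ := not_disjoint_iff.1 hy.2.2
      obtain ⟨a, ha, hai⟩ := mem_image.1 hix
      obtain ⟨b, hb, hbi⟩ := mem_image.1 hiy
      rw [mem_biUnion]
      refine ⟨a, ha, ?_⟩
      rw [mem_union]
      have hby : G.Adj b y := ((G.mem_neighborFinset y b).1 hb).symm
      rcases rep_eq_cases hinv hrep (hai.trans hbi.symm) with h | h
      · left
        rw [G.mem_neighborFinset, ← h]
        exact hby
      · right
        rw [G.mem_neighborFinset, ← h]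
        exact hby
    calc (univ.filter (fun y => y ≠ x ∧ ¬ Disjoint (S x) (S y))).card
        ≤ ((G.neighborFinset x).biUnion
          (fun a => G.neighborFinset a ∪ G.neighborFinset (f a))).card := card_le_card hsub
      _ ≤ ∑ a ∈ G.neighborFinset x, (G.neighborFinset a ∪ G.neighborFinset (f a)).card :=
          card_biUnion_le
      _ ≤ ∑ _a ∈ G.neighborFinset x, (d + d) := by
          apply sum_le_sum
          intro a _
          calc (G.neighborFinset a ∪ G.neighborFinset (f a)).card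
              ≤ (G.neighborFinset a).card + (G.neighborFinset (f a)).card := card_union_le _ _
            _ = d + d := by rw [hdeg, hdeg]
      _ = 2 * d ^ 2 := by
          rw [sum_const, hdeg, smul_eq_mul]
          ring
  have hp4 : 4 * (2 * ((162 / 97 : ℝ) ^ 2 * (97 / 108) ^ d)) ≤ 1 := by
    have hD1 : (1 : ℝ) ≤ ((2 * d ^ 2 : ℕ) : ℝ) := by
      have : 1 ≤ 2 * d ^ 2 := by
        have : 1 ≤ d ^ 2 := Nat.one_le_pow _ _ (by omega)
        omega
      exact_mod_cast this
    calc 4 * (2 * ((162 / 97 : ℝ) ^ 2 * (97 / 108) ^ d))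
        = 4 * (2 * ((162 / 97 : ℝ) ^ 2 * (97 / 108) ^ d)) * 1 := by ring
      _ ≤ 4 * (2 * ((162 / 97 : ℝ) ^ 2 * (97 / 108) ^ d)) * ((2 * d ^ 2 : ℕ) : ℝ) :=
          mul_le_mul_of_nonneg_left hD1 (by positivity)
      _ ≤ 1 := hnum
  obtain ⟨ω, hω⟩ := lll (fun x => ET x ∪ EF x) S hdep
    (2 * ((162 / 97 : ℝ) ^ 2 * (97 / 108) ^ d)) (2 * d ^ 2) hp hD hnum hp4
  refine ⟨chiOf f u v rep ω, ?_, ?_, ?_, ?_, ?_⟩
  · unfold chiOf
    rw [if_pos rfl]
  · unfold chiOf
    rw [if_neg huv.symm, if_pos rfl]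
  · intro y hyu hyv
    have hfy : f y ≠ y := by
      intro h
      rcases hfix y h with h | h
      · exact hyu h
      · exact hyv h
    have hfu : f y ≠ u := by
      intro h
      apply hyu
      have := congrArg f h
      rw [hinv, hu] at this
      exact this
    have hfv : f y ≠ v := by
      intro h
      apply hyv
      have := congrArg f h
      rw [hinv, hv] at this
      exact this
    unfold chiOf
    rw [if_neg hfu, if_neg hfv, if_neg hyu, if_neg hyv, hrep' y, hinv]
    rcases hrep y with h | h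
    · rw [h, if_neg (Ne.symm hfy), if_pos rfl]
    · rw [h, if_pos rfl, if_neg hfy, Bool.not_not]
  · intro x
    have h := hω x
    simp only [ET, EF, mem_union, mem_filter, mem_univ, true_and, not_or, not_lt] at h
    exact h.1
  · intro x
    have h := hω x
    simp only [ET, EF, mem_union, mem_filter, mem_univ, true_and, not_or, not_lt] at h
    exact h.2

end Vale.Agent.P308.EU
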