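import Vale.Agent.P308.EU.Defs
import Vale.Agent.P308.EX.Move

/-! P308, regular expanders, uniform bound, PART R2: reversibility of hole moves. -/

namespace Vale.Agent.P308.EU

open Finset Vale.Agent.P308.BI Vale.Agent.P308.EX

set_option linter.unusedSectionVars false

variable {V : Type*} [Fintype V] [DecidableEq V]

/-- a hole move is undone by the hole move across the same vertex -/
theorem move_move {G : SimpleGraph V} {g : V → V} {x a : V} (hg : IsMatch G g) (hx : g x = x)
    (hxa : G.Adj x a) (ha : g a ≠ a) : move (move g x a) (g a) a = g := by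
  have hax : a ≠ x := hxa.ne'
  have hbx : g a ≠ x := partner_ne_hole hg hx hxa
  funext z
  have e_a : move g x a a = x := move_nbr g hax
  by_cases h3 : z = g a
  · rw [h3, move_hole, hg.1 a]
  by_cases h2 : z = a
  · rw [h2, move_nbr _ ha.symm]
  by_cases h1 : z = x
  · rw [h1]
    have : move (move g x a) (g a) a x = x := by
      have hh := move_partner (move g x a) (g a) a (by rw [e_a]; exact hbx.symm)
        (by rw [e_a]; exact hax.symm)
      rwa [e_a] at hh
    rw [this, hx]
  rw [move_eq_of_ne (move g x a) (g a) a z h3 h2 (by rw [e_a]; exact h1),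
    move_eq_of_ne g x a z h1 h2 h3]

/-- a hole move of the first hole keeps the state space -/
theorem St.move {G : SimpleGraph V} {v : V} {g : V → V} {x a : V} (h : St G v g x)
    (hxa : G.Adj x a) (ha : g a ≠ a) : St G v (EX.move g x a) (g a) := by
  obtain ⟨hm, hx, hv, hxv, hfix⟩ := h
  have hbx : g a ≠ x := partner_ne_hole hm hx hxa
  refine ⟨move_isMatch hm hx hxa ha, move_partner g x a hbx ha, ?_, ?_, ?_⟩
  · exact (move_fix hm hx hxa ha v).2 (Or.inr ⟨hv, hxv.symm⟩)
  · intro h1
    have h2 : g v = a := by rw [← h1, hm.1 a]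
    rw [hv] at h2
    rw [← h2] at ha
    exact ha hv
  · intro z hz
    rcases (move_fix hm hx hxa ha z).1 hz with h1 | ⟨h1, h2⟩
    · exact Or.inl h1
    · rcases hfix z h1 with h3 | h3
      · exact absurd h3 h2
      · exact Or.inr h3

theorem mem_states {G : SimpleGraph V} {v : V} {p : (V → V) × V} :
    p ∈ states G v ↔ St G v p.1 p.2 := by
  classical
  unfold states
  rw [mem_filter]
  exact ⟨fun h => h.2, fun h => ⟨mem_univ _, h⟩⟩

theorem T_succ {G : SimpleGraph V} [DecidableRel G.Adj] {d : ℕ} (hreg : G.IsRegularOfDegree d)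
    (v : V) (k : ℕ) :
    ∑ p ∈ states G v, Rr G v (k + 1) p.1 p.2 ≤ d * ∑ p ∈ states G v, Rr G v k p.1 p.2 := by
  classical
  set A : Finset (Σ _ : (V → V) × V, V) :=
    (states G v).sigma (fun p => (G.neighborFinset p.2).filter (fun a => p.1 a ≠ a)) with hA
  set B : Finset (Σ _ : (V → V) × V, V) :=
    (states G v).sigma (fun p => G.neighborFinset p.2) with hB
  set F : (Σ _ : (V → V) × V, V) → ℕ := fun y => Rr G v k y.1.1 y.1.2 with hF
  set φ : (Σ _ : (V → V) × V, V) → (Σ _ : (V → V) × V, V) :=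
    fun x => ⟨(move x.1.1 x.1.2 x.2, x.1.1 x.2), x.2⟩ with hφ
  have hL : ∑ p ∈ states G v, Rr G v (k + 1) p.1 p.2 = ∑ x ∈ A, F (φ x) := by
    rw [hA, Finset.sum_sigma]
    rfl
  have hR : d * ∑ p ∈ states G v, Rr G v k p.1 p.2 = ∑ y ∈ B, F y := by
    rw [hB, Finset.sum_sigma, Finset.mul_sum]
    refine Finset.sum_congr rfl (fun p _ => ?_)
    have : ∑ s ∈ G.neighborFinset p.2, F ⟨p, s⟩ = ∑ _s ∈ G.neighborFinset p.2, Rr G v k p.1 p.2 := rfl
    rw [this, Finset.sum_const, smul_eq_mul, G.card_neighborFinset_eq_degree, hreg.degree_eq]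
  have hmemA : ∀ x ∈ A, St G v x.1.1 x.1.2 ∧ G.Adj x.1.2 x.2 ∧ x.1.1 x.2 ≠ x.2 := by
    intro x hx
    rw [hA, mem_sigma, mem_filter, SimpleGraph.mem_neighborFinset] at hx
    exact ⟨mem_states.1 hx.1, hx.2.1, hx.2.2⟩
  have hinj : Set.InjOn φ (A : Set (Σ _ : (V → V) × V, V)) := by
    intro x hx y hy hxy
    obtain ⟨sx, ax, nx⟩ := hmemA x (mem_coe.1 hx)
    obtain ⟨sy, ay, ny⟩ := hmemA y (mem_coe.1 hy)
    obtain ⟨⟨g, x0⟩, a⟩ := x
    obtain ⟨⟨g', x0'⟩, a'⟩ := y
    simp only [hφ, Sigma.mk.injEq, Prod.mk.injEq, heq_eq_eq] at hxy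
    obtain ⟨⟨h1, h2⟩, h3⟩ := hxy
    dsimp only at sx ax nx sy ay ny
    subst h3
    have e1 := move_move sx.1 sx.2.1 ax nx
    have e2 := move_move sy.1 sy.2.1 ay ny
    have hg : g = g' := by rw [← e1, ← e2, h1, h2]
    subst hg
    have hx0 : x0 = x0' := by
      have f1 : move g x0 a a = x0 := move_nbr g ax.ne'
      have f2 : move g x0' a a = x0' := move_nbr g ay.ne'
      rw [← f1, ← f2, h1]
    subst hx0
    rfl
  have hsub : A.image φ ⊆ B := by
    intro y hy
    rw [mem_image] at hy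
    obtain ⟨x, hx, rfl⟩ := hy
    obtain ⟨sx, ax, nx⟩ := hmemA x hx
    rw [hB, mem_sigma, SimpleGraph.mem_neighborFinset]
    exact ⟨mem_states.2 (sx.move ax nx), (sx.1.2 x.2 nx).symm⟩
  rw [hL, hR, ← Finset.sum_image hinj]
  exact Finset.sum_le_sum_of_subset hsub

/-- close the two holes `x`, `v` by the edge `x v` -/
def close (g : V → V) (x v : V) : V → V :=
  fun z => if z = x then v else if z = v then x else g z

theorem close_isPerfect {G : SimpleGraph V} {v : V} {g : V → V} {x : V} (h : St G v g x)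
    (hxv : G.Adj x v) : IsPerfect G (close g x v) := by
  obtain ⟨hm, hx, hv, hne, hfix⟩ := h
  have hinj : ∀ y z, g y = g z → y = z := fun y z h => by rw [← hm.1 y, h, hm.1 z]
  have e_x : close g x v x = v := by simp [close]
  have e_v : close g x v v = x := by simp [close, hne.symm]
  have e_o : ∀ z, z ≠ x → z ≠ v → close g x v z = g z := fun z h1 h2 => by simp [close, h1, h2]
  refine ⟨⟨?_, ?_⟩, ?_⟩
  · intro z
    by_cases h1 : z = x
    · rw [h1, e_x, e_v]
    by_cases h2 : z = v
    · rw [h2, e_v, e_x]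
    have h3 : g z ≠ x := fun h => h1 (hinj z x (by rw [h, hx]))
    have h4 : g z ≠ v := fun h => h2 (hinj z v (by rw [h, hv]))
    rw [e_o z h1 h2, e_o _ h3 h4, hm.1 z]
  · intro z hz
    by_cases h1 : z = x
    · rw [h1, e_x]; exact hxv
    by_cases h2 : z = v
    · rw [h2, e_v]; exact hxv.symm
    rw [e_o z h1 h2] at hz ⊢
    exact hm.2 z hz
  · intro z
    by_cases h1 : z = x
    · rw [h1, e_x]; exact hne.symm
    by_cases h2 : z = v
    · rw [h2, e_v]; exact hne
    rw [e_o z h1 h2]
    intro h3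
    rcases hfix z h3 with h4 | h4
    · exact h1 h4
    · exact h2 h4

theorem T_zero (G : SimpleGraph V) [DecidableRel G.Adj] (v : V) :
    ∑ p ∈ states G v, Rr G v 0 p.1 p.2 ≤ numPerfect G := by
  classical
  have hL : ∑ p ∈ states G v, Rr G v 0 p.1 p.2
      = ((states G v).filter (fun p => G.Adj p.2 v)).card := by
    rw [Finset.card_filter]
    rfl
  rw [hL]
  unfold numPerfect
  refine Finset.card_le_card_of_injOn (fun p => close p.1 p.2 v) ?_ ?_
  · intro p hp
    have hp' := mem_filter.1 (mem_coe.1 hp)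
    exact mem_coe.2 (mem_filter.2 ⟨mem_univ _, close_isPerfect (mem_states.1 hp'.1) hp'.2⟩)
  · intro p hp q hq hpq
    have hp' := mem_states.1 (mem_filter.1 (mem_coe.1 hp)).1
    have hq' := mem_states.1 (mem_filter.1 (mem_coe.1 hq)).1
    obtain ⟨g, x⟩ := p
    obtain ⟨g', x'⟩ := q
    dsimp only at hp' hq' hpq
    have e1 : close g x v v = x := by simp [close, hp'.2.2.2.1.symm]
    have e2 : close g' x' v v = x' := by simp [close, hq'.2.2.2.1.symm]
    have hx : x = x' := by rw [← e1, ← e2, hpq]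
    subst hx
    have hg : g = g' := by
      funext z
      by_cases h1 : z = x
      · rw [h1, hp'.2.1, hq'.2.1]
      by_cases h2 : z = v
      · rw [h2, hp'.2.2.1, hq'.2.2.1]
      have := congrFun hpq z
      simpa [close, h1, h2] using this
    rw [hg]

end Vale.Agent.P308.EU
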