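import Vale.Agent.P308.EU.Defs

namespace Vale.Agent.P308.EU

open Finset Vale.Agent.P308.BI Vale.Agent.P308.EX

set_option linter.unusedSectionVars false

variable {V : Type*} [Fintype V] [DecidableEq V]

theorem sum_nbr_sum {G : SimpleGraph V} [DecidableRel G.Adj] {d : ℕ}
    (hreg : G.IsRegularOfDegree d) (x : V → ℝ) :
    ∑ v, ∑ w ∈ G.neighborFinset v, x w = d * ∑ w, x w := by
  rw [Finset.sum_comm' (s' := fun w => G.neighborFinset w) (t' := univ)]
  · rw [Finset.mul_sum]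
    apply Finset.sum_congr rfl
    intro w _
    rw [Finset.sum_const, SimpleGraph.card_neighborFinset_eq_degree, hreg w, nsmul_eq_mul]
  · intro v w
    simp only [mem_univ, true_and, and_true, SimpleGraph.mem_neighborFinset]
    exact ⟨fun h => h.symm, fun h => h.symm⟩

/-- decomposition data for `x = m + x'` -/
theorem spec_core {G : SimpleGraph V} [DecidableRel G.Adj] {d : ℕ} (hreg : G.IsRegularOfDegree d)
    {lam : ℝ} (hspec : SpecGap G lam) [Nonempty V] (x : V → ℝ) :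
    ∃ z : V → ℝ, (∀ v, ∑ w ∈ G.neighborFinset v, x w
        = z v + d * ((∑ v, x v) / Fintype.card V)) ∧
      ∑ v, z v = 0 ∧ ∑ v, z v ^ 2 ≤ lam ^ 2 * ∑ v, x v ^ 2 := by
  set N : ℝ := (Fintype.card V : ℝ) with hN
  have hNpos : 0 < N := by rw [hN]; exact_mod_cast Fintype.card_pos
  set s : ℝ := ∑ v, x v with hs
  set m : ℝ := s / N with hm
  set x' : V → ℝ := fun v => x v - m with hx'
  have hsum' : ∑ v, x' v = 0 := by
    simp only [hx', Finset.sum_sub_distrib, Finset.sum_const, card_univ, nsmul_eq_mul]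
    rw [← hs, ← hN, hm]
    field_simp
    ring
  have hsq : ∑ v, x' v ^ 2 ≤ ∑ v, x v ^ 2 := by
    have e : ∑ v, x' v ^ 2 = ∑ v, x v ^ 2 - N * m ^ 2 := by
      have : ∀ v, x' v ^ 2 = x v ^ 2 - 2 * m * x v + m ^ 2 := by
        intro v; simp only [hx']; ring
      simp only [this, Finset.sum_add_distrib, Finset.sum_sub_distrib, ← Finset.mul_sum,
        Finset.sum_const, card_univ, nsmul_eq_mul]
      rw [← hs, ← hN]
      have : s = N * m := by rw [hm]; field_simp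
      rw [this]; ring
    rw [e]
    have : 0 ≤ N * m ^ 2 := by positivity
    linarith
  refine ⟨fun v => ∑ w ∈ G.neighborFinset v, x' w, ?_, ?_, ?_⟩
  · intro v
    simp only [hx', Finset.sum_sub_distrib, Finset.sum_const,
      SimpleGraph.card_neighborFinset_eq_degree, hreg v, nsmul_eq_mul]
    ring
  · rw [sum_nbr_sum hreg, hsum', mul_zero]
  · refine le_trans (hspec x' hsum') ?_
    exact mul_le_mul_of_nonneg_left hsq (sq_nonneg _)

theorem spec_l2 {G : SimpleGraph V} [DecidableRel G.Adj] {d : ℕ} (hreg : G.IsRegularOfDegree d)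
    {lam : ℝ} (hspec : SpecGap G lam) (x : V → ℝ) :
    ∑ v, (∑ w ∈ G.neighborFinset v, x w) ^ 2
      ≤ d ^ 2 * (∑ v, x v) ^ 2 / Fintype.card V + lam ^ 2 * ∑ v, x v ^ 2 := by
  rcases isEmpty_or_nonempty V with hV | hV
  · simp
  obtain ⟨z, h1, h2, h3⟩ := spec_core hreg hspec x
  have hNpos : (0 : ℝ) < Fintype.card V := by exact_mod_cast Fintype.card_pos
  set N : ℝ := (Fintype.card V : ℝ) with hN
  set s : ℝ := ∑ v, x v with hs
  have e : ∑ v, (∑ w ∈ G.neighborFinset v, x w) ^ 2 = ∑ v, z v ^ 2 + d ^ 2 * s ^ 2 / N := by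
    have : ∀ v, (∑ w ∈ G.neighborFinset v, x w) ^ 2
        = z v ^ 2 + 2 * (d * (s / N)) * z v + (d * (s / N)) ^ 2 := by
      intro v; rw [h1 v]; ring
    simp only [this, Finset.sum_add_distrib, ← Finset.mul_sum, Finset.sum_const, card_univ,
      nsmul_eq_mul]
    rw [h2, ← hN]
    field_simp
    ring
  rw [e]
  linarith

theorem spec_bilin {G : SimpleGraph V} [DecidableRel G.Adj] {d : ℕ}
    (hreg : G.IsRegularOfDegree d) {lam : ℝ} (hlam : 0 ≤ lam) (hspec : SpecGap G lam)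
    (x y : V → ℝ) (X2 Y2 M : ℝ) (hx : ∑ v, x v ^ 2 ≤ X2) (hy : ∑ v, y v ^ 2 ≤ Y2) (hM : 0 ≤ M)
    (hXY : X2 * Y2 ≤ M ^ 2) :
    d * (∑ v, x v) * (∑ v, y v) / Fintype.card V - lam * M
      ≤ ∑ v, y v * ∑ w ∈ G.neighborFinset v, x w := by
  rcases isEmpty_or_nonempty V with hV | hV
  · simp
    positivity
  obtain ⟨z, h1, h2, h3⟩ := spec_core hreg hspec x
  have e : ∑ v, y v * ∑ w ∈ G.neighborFinset v, x w
      = ∑ v, y v * z v + d * (∑ v, x v) * (∑ v, y v) / Fintype.card V := by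
    have : ∀ v, y v * ∑ w ∈ G.neighborFinset v, x w
        = y v * z v + (d * ((∑ v, x v) / Fintype.card V)) * y v := by
      intro v; rw [h1 v]; ring
    simp only [this, Finset.sum_add_distrib, ← Finset.mul_sum]
    ring
  rw [e]
  have cs := Finset.sum_mul_sq_le_sq_mul_sq univ y z
  have hx0 : 0 ≤ ∑ v, x v ^ 2 := Finset.sum_nonneg (fun v _ => sq_nonneg _)
  have hy0 : 0 ≤ ∑ v, y v ^ 2 := Finset.sum_nonneg (fun v _ => sq_nonneg _)
  have hz0 : 0 ≤ ∑ v, z v ^ 2 := Finset.sum_nonneg (fun v _ => sq_nonneg _)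
  have h4 : (∑ v, y v * z v) ^ 2 ≤ (lam * M) ^ 2 := by
    calc (∑ v, y v * z v) ^ 2 ≤ (∑ v, y v ^ 2) * (∑ v, z v ^ 2) := cs
      _ ≤ Y2 * (lam ^ 2 * X2) := by
          apply mul_le_mul hy (le_trans h3 _) hz0 (le_trans hy0 hy)
          exact mul_le_mul_of_nonneg_left hx (sq_nonneg _)
      _ = lam ^ 2 * (X2 * Y2) := by ring
      _ ≤ lam ^ 2 * M ^ 2 := mul_le_mul_of_nonneg_left hXY (sq_nonneg _)
      _ = (lam * M) ^ 2 := by ring
  have h5 := abs_le_of_sq_le_sq h4 (by positivity)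
  have h6 := neg_le_of_abs_le h5
  linarith

end Vale.Agent.P308.EU
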