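import Vale.Agent.P308.EU.Spec2

/-! P308, expanders uniform in the degree, PART W1: growth of the forward mass `phi`. -/

namespace Vale.Agent.P308.EU

open Finset Vale.Agent.P308.BI Vale.Agent.P308.EX

variable {V : Type*} [Fintype V] [DecidableEq V]

theorem Orient.swap {G : SimpleGraph V} [DecidableRel G.Adj] {f : V → V} {u v : V} {d : ℕ}
    {χ : V → Bool} (h : Orient G f u v d χ) : Orient G f v u d (fun z => !χ z) := by
  refine ⟨?_, ?_, ?_, ?_, ?_⟩
  · simp [h.chi_v]
  · simp [h.chi_u]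
  · intro y hyv hyu
    simp [h.flip y hyu hyv]
  · intro x
    have := h.degF x
    simpa using this
  · intro x
    have := h.degT x
    simpa using this

theorem phi_nonneg (G : SimpleGraph V) [DecidableRel G.Adj] (f : V → V) (χ : V → Bool) (u : V)
    (t : ℕ) (z : V) : 0 ≤ phi G f χ u t z := by
  induction t generalizing z with
  | zero =>
    simp only [phi]
    split_ifs <;> norm_num
  | succ t ih =>
    simp only [phi]
    split_ifs
    · exact Finset.sum_nonneg (fun b _ => ih b)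
    · exact le_refl _

theorem phi_mass {G : SimpleGraph V} [DecidableRel G.Adj] {f : V → V} {u v : V} {d : ℕ}
    {χ : V → Bool} (hf : IsMatch G f) (hu : f u = u) (hv : f v = v)
    (h : Orient G f u v d χ) (t : ℕ) :
    (d : ℝ) / 4 * ∑ z, phi G f χ u t z ≤ ∑ z, phi G f χ u (t + 1) z := by
  have hinv := hf.1
  have huv : u ≠ v := by
    intro e
    have h1 := h.chi_u
    rw [e, h.chi_v] at h1
    exact absurd h1 (by simp)
  have e1 : ∑ z, phi G f χ u (t + 1) z
      = ∑ z ∈ univ.filter (fun z => χ z = false ∧ z ≠ u),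
          ∑ b ∈ G.neighborFinset (f z), phi G f χ u t b := by
    rw [Finset.sum_filter]
    rfl
  have e2 : ∑ z ∈ univ.filter (fun z => χ z = false ∧ z ≠ u),
          ∑ b ∈ G.neighborFinset (f z), phi G f χ u t b
      = ∑ a ∈ univ.filter (fun a => χ a = true ∧ a ≠ v),
          ∑ b ∈ G.neighborFinset a, phi G f χ u t b := by
    apply Finset.sum_nbij' f f
    · intro z hz
      simp only [mem_filter, mem_univ, true_and] at hz ⊢
      have hzv : z ≠ v := by
        intro e
        rw [e, h.chi_v] at hz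
        exact absurd hz.1 (by simp)
      refine ⟨by rw [h.flip z hz.2 hzv, hz.1]; rfl, ?_⟩
      intro e
      apply hzv
      rw [← hinv z, e, hv]
    · intro a ha
      simp only [mem_filter, mem_univ, true_and] at ha ⊢
      have hau : a ≠ u := by
        intro e
        rw [e, h.chi_u] at ha
        exact absurd ha.1 (by simp)
      refine ⟨by rw [h.flip a hau ha.2, ha.1]; rfl, ?_⟩
      intro e
      apply hau
      rw [← hinv a, e, hu]
    · intro z _
      exact hinv z
    · intro a _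
      exact hinv a
    · intro z _
      rfl
  have e3 : ∑ a ∈ univ.filter (fun a => χ a = true ∧ a ≠ v),
          ∑ b ∈ G.neighborFinset a, phi G f χ u t b
      = ∑ b, ∑ _a ∈ (G.neighborFinset b).filter (fun a => χ a = true ∧ a ≠ v),
          phi G f χ u t b := by
    apply Finset.sum_comm'
    intro a b
    simp only [mem_filter, mem_univ, true_and, SimpleGraph.mem_neighborFinset, and_true]
    constructor
    · rintro ⟨h1, h2⟩
      exact ⟨h2.symm, h1⟩
    · rintro ⟨h1, h2⟩
      exact ⟨h2, h1.symm⟩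
  rw [e1, e2, e3, Finset.mul_sum]
  apply Finset.sum_le_sum
  intro b _
  rw [Finset.sum_const, nsmul_eq_mul]
  apply mul_le_mul_of_nonneg_right _ (phi_nonneg G f χ u t b)
  have := h.degT b
  have h2 : (d : ℝ) ≤ 4 * (((G.neighborFinset b).filter (fun a => χ a = true ∧ a ≠ v)).card : ℝ) := by
    exact_mod_cast this
  linarith

theorem phi_l2 {G : SimpleGraph V} [DecidableRel G.Adj] {f : V → V} {u : V} {d : ℕ}
    {χ : V → Bool} (hf : IsMatch G f) (hreg : G.IsRegularOfDegree d) {lam : ℝ}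
    (hspec : SpecGap G lam) (t : ℕ) :
    ∑ z, phi G f χ u (t + 1) z ^ 2
      ≤ d ^ 2 * (∑ z, phi G f χ u t z) ^ 2 / Fintype.card V
        + lam ^ 2 * ∑ z, phi G f χ u t z ^ 2 := by
  have hinv : Function.Involutive f := hf.1
  refine le_trans ?_ (spec_l2 hreg hspec (phi G f χ u t))
  calc ∑ z, phi G f χ u (t + 1) z ^ 2
      ≤ ∑ z, (∑ b ∈ G.neighborFinset (f z), phi G f χ u t b) ^ 2 := by
        apply Finset.sum_le_sum
        intro z _
        simp only [phi]
        split_ifs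
        · exact le_refl _
        · simpa using sq_nonneg (∑ b ∈ G.neighborFinset (f z), phi G f χ u t b)
    _ = ∑ a, (∑ b ∈ G.neighborFinset a, phi G f χ u t b) ^ 2 :=
        Equiv.sum_comp hinv.toPerm
          (fun a => (∑ b ∈ G.neighborFinset a, phi G f χ u t b) ^ 2)

theorem phi_bound {G : SimpleGraph V} [DecidableRel G.Adj] {f : V → V} {u v : V} {d : ℕ}
    {χ : V → Bool} (hf : IsMatch G f) (hu : f u = u) (hv : f v = v)
    (h : Orient G f u v d χ) (hd : 0 < d) (hreg : G.IsRegularOfDegree d) {lam : ℝ}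
    (hlam : 0 ≤ lam) (hspec : SpecGap G lam) (hgap : 40 * lam ≤ d) (t : ℕ) :
    ((d : ℝ) / 4) ^ t ≤ ∑ z, phi G f χ u t z ∧
    ∑ z, phi G f χ u t z ^ 2
      ≤ (17 / Fintype.card V + (1 / 64) ^ t) * (∑ z, phi G f χ u t z) ^ 2 := by
  have hdR : (0 : ℝ) < d := by exact_mod_cast hd
  have hc : (0 : ℝ) ≤ (Fintype.card V : ℝ)⁻¹ := by positivity
  induction t with
  | zero =>
    have s1 : ∑ z, phi G f χ u 0 z = 1 := by
      simp [phi]
    have s2 : ∑ z, phi G f χ u 0 z ^ 2 = 1 := by
      simp [phi]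
    rw [s1, s2]
    refine ⟨by simp, ?_⟩
    have : (0 : ℝ) ≤ 17 / (Fintype.card V : ℝ) := by positivity
    simp only [pow_zero, one_pow, mul_one]
    linarith
  | succ t ih =>
    obtain ⟨ih1, ih2⟩ := ih
    set P := ∑ z, phi G f χ u t z with hP
    set P' := ∑ z, phi G f χ u (t + 1) z with hP'
    set m := ∑ z, phi G f χ u t z ^ 2 with hm
    set m' := ∑ z, phi G f χ u (t + 1) z ^ 2 with hm'
    set c := (Fintype.card V : ℝ)⁻¹ with hcdef
    set Q := ((1 : ℝ) / 64) ^ t with hQ
    have hQ0 : 0 ≤ Q := by positivity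
    have hP0 : 0 ≤ P := Finset.sum_nonneg (fun z _ => phi_nonneg G f χ u t z)
    have hmass : (d : ℝ) / 4 * P ≤ P' := phi_mass hf hu hv h t
    have hl2 : m' ≤ d ^ 2 * P ^ 2 / Fintype.card V + lam ^ 2 * m := phi_l2 hf hreg hspec t
    constructor
    · calc ((d : ℝ) / 4) ^ (t + 1) = (d : ℝ) / 4 * ((d : ℝ) / 4) ^ t := by rw [pow_succ']
        _ ≤ (d : ℝ) / 4 * P := by
            apply mul_le_mul_of_nonneg_left ih1; positivity
        _ ≤ P' := hmass
    · have hL : lam ^ 2 ≤ (d : ℝ) ^ 2 / 1600 := by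
        have h1 : (40 * lam) ^ 2 ≤ (d : ℝ) ^ 2 := pow_le_pow_left₀ (by positivity) hgap 2
        nlinarith [h1]
      have ih2' : m ≤ (17 * c + Q) * P ^ 2 := by
        have : (17 : ℝ) / (Fintype.card V : ℝ) = 17 * c := by rw [hcdef, div_eq_mul_inv]
        rw [this] at ih2
        exact ih2
      have hB0 : 0 ≤ (17 * c + Q) * P ^ 2 := by positivity
      have h2 : m' ≤ (d : ℝ) ^ 2 * P ^ 2 * c + (d : ℝ) ^ 2 / 1600 * ((17 * c + Q) * P ^ 2) := by
        calc m' ≤ d ^ 2 * P ^ 2 / Fintype.card V + lam ^ 2 * m := hl2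
          _ = (d : ℝ) ^ 2 * P ^ 2 * c + lam ^ 2 * m := by rw [hcdef, div_eq_mul_inv]
          _ ≤ (d : ℝ) ^ 2 * P ^ 2 * c + lam ^ 2 * ((17 * c + Q) * P ^ 2) := by
              have := mul_le_mul_of_nonneg_left ih2' (sq_nonneg lam)
              linarith
          _ ≤ (d : ℝ) ^ 2 * P ^ 2 * c + (d : ℝ) ^ 2 / 1600 * ((17 * c + Q) * P ^ 2) := by
              have := mul_le_mul_of_nonneg_right hL hB0
              linarith
      have hK0 : 0 ≤ (d : ℝ) ^ 2 * P ^ 2 := by positivity
      have h3 : (d : ℝ) ^ 2 * P ^ 2 * c + (d : ℝ) ^ 2 / 1600 * ((17 * c + Q) * P ^ 2)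
          ≤ (17 * c + Q / 64) * (((d : ℝ) / 4 * P) ^ 2) := by
        have e : (d : ℝ) ^ 2 * P ^ 2 * c + (d : ℝ) ^ 2 / 1600 * ((17 * c + Q) * P ^ 2)
            = ((d : ℝ) ^ 2 * P ^ 2) * (c + (17 * c + Q) / 1600) := by ring
        have e' : (17 * c + Q / 64) * (((d : ℝ) / 4 * P) ^ 2)
            = ((d : ℝ) ^ 2 * P ^ 2) * (17 * c / 16 + Q / 1024) := by ring
        rw [e, e']
        apply mul_le_mul_of_nonneg_left _ hK0
        linarith
      have h4 : ((d : ℝ) / 4 * P) ^ 2 ≤ P' ^ 2 := pow_le_pow_left₀ (by positivity) hmass 2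
      have h5 : (17 * c + Q / 64) * (((d : ℝ) / 4 * P) ^ 2) ≤ (17 * c + Q / 64) * P' ^ 2 := by
        apply mul_le_mul_of_nonneg_left h4; positivity
      have e6 : (17 / (Fintype.card V : ℝ) + (1 / 64 : ℝ) ^ (t + 1)) = 17 * c + Q / 64 := by
        rw [hcdef, hQ, pow_succ, div_eq_mul_inv]
        ring
      rw [e6]
      linarith

end Vale.Agent.P308.EU
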